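import Vale.Agent.P022G.Pres.Tn

/-!
# P022G, the presentation of the universal ring
-/

set_option linter.all false

noncomputable section

namespace Vale.Agent.P022G.Pres

open NumberField IsLocalRing
open Vale.Agent.P022
open Vale.Agent.P027M.S (Inert mx)
open Vale.Agent.P022D.Sel (M2)
open Vale.Agent.P022E.GW (Ov Op Ur H1)

/-- the linear forms on `a` which vanish on `b` -/
def Lam {A F : Type} [CommRing A] [Field F] (π : A →+* F) (a b : Ideal A) :
    Submodule F (A → F) where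
  carrier := {l | Fn π a l ∧ ∀ x ∈ a, x ∈ b → l x = 0}
  add_mem' {x y} hx hy := ⟨⟨fun p hp q hq => by
      simp only [Pi.add_apply, hx.1.add p hp q hq, hy.1.add p hp q hq]; ring,
    fun c p hp => by simp only [Pi.add_apply, hx.1.mul c p hp, hy.1.mul c p hp]; ring⟩,
    fun p hp hq => by simp only [Pi.add_apply, hx.2 p hp hq, hy.2 p hp hq, add_zero]⟩
  zero_mem' := ⟨⟨fun _ _ _ _ => by simp, fun _ _ _ => by simp⟩, fun _ _ _ => rfl⟩
  smul_mem' c x hx := ⟨⟨fun p hp q hq => by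
      simp only [Pi.smul_apply, hx.1.add p hp q hq, smul_add],
    fun d p hp => by simp only [Pi.smul_apply, hx.1.mul d p hp, smul_eq_mul]; ring⟩,
    fun p hp hq => by simp only [Pi.smul_apply, hx.2 p hp hq, smul_zero]⟩

/-- a maximal independent family generates -/
theorem maxfam {A F : Type} [CommRing A] [Field F] {π : A →+* F} (hs : Function.Surjective π)
    {a b m : Ideal A} (hm : ∀ c, π c = 0 → ∀ x ∈ a, c * x ∈ m ⊔ b) {H : Set A} (hH : H ⊆ a)
    (Q : ℕ → Prop) (K : ℕ) (hK : ∀ n, Q n → n ≤ K)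
    (h : ∀ (n : ℕ) (e : Fin n → A), (∀ i, e i ∈ H) →
      (∀ y : Fin n → F, ∃ l ∈ Lam π a b, ∀ i, l (e i) = y i) → Q n) :
    ∃ (n : ℕ) (e : Fin n → A), Q n ∧ (∀ i, e i ∈ H) ∧
      Ideal.span H ≤ Ideal.span (Set.range e) ⊔ (m ⊔ b) := by
  classical
  let R : ℕ → Prop := fun n => ∃ e : Fin n → A, (∀ i, e i ∈ H) ∧
    ∀ y : Fin n → F, ∃ l ∈ Lam π a b, ∀ i, l (e i) = y i
  obtain ⟨e, e1, e2⟩ : R (Nat.findGreatest R K) :=
    Nat.findGreatest_spec (Nat.zero_le K) ⟨Fin.elim0, fun i => i.elim0,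
      fun y => ⟨0, Submodule.zero_mem _, fun i => i.elim0⟩⟩
  refine ⟨_, e, h _ e e1 e2, e1, Ideal.span_le.2 fun x hx => ?_⟩
  by_contra hn
  obtain ⟨l1, f, z, o⟩ := sep hs (I' := Ideal.span (Set.range e) ⊔ (m ⊔ b))
    (fun c hc x hx => Ideal.mem_sup_right (hm c hc x hx)) (hH hx) hn
  have r : R (Nat.findGreatest R K + 1) := by
    refine ⟨Fin.cons x e, Fin.cases hx e1, fun y => ?_⟩
    obtain ⟨l, hl, k⟩ := e2 (Fin.tail y)
    refine ⟨l + (y 0 - l x) • l1, Submodule.add_mem _ hl (Submodule.smul_mem _ _ ⟨f, fun p hp hq =>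
      z p hp (Ideal.mem_sup_right (Ideal.mem_sup_right hq))⟩), Fin.cases (by simp [o]) fun i => ?_⟩
    have := z _ (hH (e1 i)) (Ideal.mem_sup_left (Ideal.subset_span ⟨i, rfl⟩))
    simp [k, this, Fin.tail]
  obtain ⟨e', k1, k2⟩ := id r
  exact Nat.findGreatest_is_greatest (Nat.lt_succ_self _) (hK _ (h _ e' k1 k2)) r

/-- **the presentation** -/
theorem pres : PRES := by
  intro O F ι _ _ _ _ _ _ _ _ S hS Lst hL DD N ⟨Θ, hΘ⟩ hD sv j hj li z1 c hc lc H hH
  have hm : Jac S ⊔ Lst ≤ maximalIdeal (PP O ι) := sup_le (jac_le hS) hL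
  obtain ⟨k, hk⟩ := (maximalIdeal (PP O ι)).exists_pow_inf_eq_pow_smul (Jac S ⊔ Lst)
  have ar : maximalIdeal (PP O ι) ^ (k + 1) ⊓ (Jac S ⊔ Lst) ≤
      maximalIdeal (PP O ι) • (Jac S ⊔ Lst) := by
    have := hk (k + 1) (Nat.le_succ k)
    rw [Nat.add_sub_cancel_left, pow_one, smul_eq_mul, Ideal.mul_top] at this
    rw [this]
    exact Submodule.smul_mono le_rfl inf_le_right
  set a := Jac S ⊔ Lst ⊔ maximalIdeal (PP O ι) ^ (k + 1) with ha'
  have ha : a ≤ maximalIdeal (PP O ι) := sup_le hm (Ideal.pow_le_self (Nat.succ_ne_zero k))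
  have hJ : Jac S ≤ a := le_sup_left.trans le_sup_left
  obtain ⟨-, ρ, hρ⟩ : Go S a :=
    (go_jac hS (k + 1)).mono (sup_le_sup_right le_sup_left _)
  obtain ⟨s, U, h⟩ := ex_sec hS ha le_sup_right hρ
  obtain ⟨n, e, h1, h2, h3⟩ := maxfam hS.sur (a := a) (b := Lst ⊔ maximalIdeal (PP O ι) ^ (k + 1))
    (m := maximalIdeal (PP O ι) • (Jac S ⊔ Lst)) (H := H)
    (fun p hp x hx => by
      obtain ⟨y, hy, z, hz, rfl⟩ := Submodule.mem_sup.1 hx
      rw [mul_add]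
      exact Submodule.add_mem_sup (Submodule.smul_mem_smul (hS.max.1 hp) hy)
        (Ideal.mem_sup_right (Ideal.mul_mem_left _ _ hz)))
    (fun x hx => hJ (hH ▸ Ideal.subset_span hx))
    (fun n => n + sv + z1 ≤ N + 4 * Fintype.card ι) (N + 4 * Fintype.card ι) (fun n h => by omega)
    (fun n e e1 e2 => by
      have he : ∀ i, e i ∈ Jac S := fun i => hH ▸ Ideal.subset_span (e1 i)
      refine cnt0 hS (L := Lam S.π0 a (Lst ⊔ maximalIdeal (PP O ι) ^ (k + 1)))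
        (Θ.comp ((zz S s).comp (Lam S.π0 a _).subtype))
        ((LinearMap.funLeft F F e).comp (Lam S.π0 a _).subtype) (fun y => ?_) e he j
        (fun a => (hj a).1) li c hc lc fun l hl => ?_
      · obtain ⟨l, hl, k⟩ := e2 y
        exact ⟨⟨l, hl⟩, funext k⟩
      · have hz : ∀ x ∈ Lst, l.1 x = 0 := fun x hx =>
          l.2.2 x (Ideal.mem_sup_left (Ideal.mem_sup_right hx)) (Ideal.mem_sup_left hx)
        obtain ⟨b, b1, b2, b3⟩ := hΘ _ (h.zc hS ha l.2.1) (fun D m => h.loc hS ha le_sup_right hρ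
          l.2.1 (fun x hx => ⟨Ideal.mem_sup_left (Ideal.mem_sup_right hx), hz x hx⟩) (hD D m)) hl
        obtain ⟨D, hD⟩ := h.glob hS ha le_sup_right hρ l.2.1 b1 b2 b3
        exact ⟨D, fun a => by rw [← hD _ (hj a).1, hz _ (hj a).2], fun i => hD _ (he i)⟩)
  refine ⟨n, e, h1, h2, le_sup_left.trans (Submodule.le_of_le_smul_of_le_jacobson_bot
    (N' := Jac S ⊔ Lst) (IsNoetherian.noetherian _) (maximalIdeal_le_jacobson _)
    (sup_le (fun x hx => ?_) (le_sup_right.trans le_sup_left)))⟩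
  have he : Ideal.span (Set.range e) ≤ Jac S :=
    hH ▸ Ideal.span_mono (by rintro _ ⟨i, rfl⟩; exact h2 i)
  obtain ⟨x1, p1, y, hy, rfl⟩ := Submodule.mem_sup.1 (h3 (hH ▸ hx))
  obtain ⟨x2, p2, y', hy', rfl⟩ := Submodule.mem_sup.1 hy
  obtain ⟨x3, p3, x4, p4, rfl⟩ := Submodule.mem_sup.1 hy'
  have p5 : x4 ∈ Jac S ⊔ Lst := by
    have := Ideal.sub_mem _ (Ideal.sub_mem _ (Ideal.sub_mem _ (Ideal.mem_sup_left hx)
      (Ideal.mem_sup_left (he p1))) (Submodule.smul_le_right p2)) (Ideal.mem_sup_right p3)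
    simpa using this
  rw [show x1 + (x2 + (x3 + x4)) = (x1 + x3) + (x2 + x4) by ring]
  exact Submodule.add_mem_sup (Submodule.add_mem_sup p1 p3) (Submodule.add_mem _ p2 (ar ⟨p4, p5⟩))

end Vale.Agent.P022G.Pres
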