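import Vale.Agent.P022G.Pres.Defs
import Vale.Agent.P022D.R.Obj

/-!
# P022G, the universal property of the ring of the generators
-/

set_option linter.all false

noncomputable section

namespace Vale.Agent.P022G.Pres

open NumberField IsLocalRing
open Vale.Agent.P022
open Vale.Agent.P027M.S (Inert mx)
open Vale.Agent.P022D.Sel (M2)
open Vale.Agent.P022E.GW (Ov Op Ur H1)
open Vale.Agent.P022D.R (opn_of_le ker_set)

section fn

variable {A F : Type} [CommRing A] [Field F]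

/-- linear forms on an ideal -/
structure Fn (π : A →+* F) (I : Ideal A) (lam : A → F) : Prop where
  add : ∀ x ∈ I, ∀ y ∈ I, lam (x + y) = lam x + lam y
  mul : ∀ b, ∀ x ∈ I, lam (b * x) = π b * lam x

variable {π : A →+* F} {I : Ideal A} {lam : A → F}

theorem Fn.zero (h : Fn π I lam) : lam 0 = 0 := by
  have := h.mul 0 0 I.zero_mem
  rwa [zero_mul, map_zero, zero_mul] at this

theorem Fn.sub (h : Fn π I lam) {x y : A} (hx : x ∈ I) (hy : y ∈ I) :
    lam (x - y) = lam x - lam y := by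
  have := h.add (x - y) (I.sub_mem hx hy) y hy
  rw [sub_add_cancel] at this
  rw [this, add_sub_cancel_right]

theorem Fn.sum (h : Fn π I lam) {κ : Type} (s : Finset κ) (x : κ → A) (hx : ∀ i, x i ∈ I) :
    lam (∑ i ∈ s, x i) = ∑ i ∈ s, lam (x i) := by
  classical
  induction s using Finset.induction_on with
  | empty => simpa using h.zero
  | insert a s ha ih =>
    rw [Finset.sum_insert ha, Finset.sum_insert ha,
      h.add _ (hx a) _ (I.sum_mem fun i _ => hx i), ih]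

theorem Fn.mull (h : Fn π I lam) (N : M2 A) {M : M2 A} (hM : ∀ i j, M i j ∈ I) :
    (N * M).map lam = N.map π * M.map lam := by
  ext i j
  simp only [Matrix.map_apply, Matrix.mul_apply]
  rw [h.sum _ _ fun k => I.mul_mem_left _ (hM k j)]
  exact Finset.sum_congr rfl fun k _ => h.mul _ _ (hM k j)

theorem Fn.mulr (h : Fn π I lam) {M : M2 A} (hM : ∀ i j, M i j ∈ I) (N : M2 A) :
    (M * N).map lam = M.map lam * N.map π := by
  ext i j
  simp only [Matrix.map_apply, Matrix.mul_apply]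
  rw [h.sum _ _ fun k => I.mul_mem_right _ (hM i k)]
  exact Finset.sum_congr rfl fun k _ => by rw [mul_comm, h.mul _ _ (hM i k), mul_comm]

theorem Fn.addm (h : Fn π I lam) {M N : M2 A} (hM : ∀ i j, M i j ∈ I) (hN : ∀ i j, N i j ∈ I) :
    (M + N).map lam = M.map lam + N.map lam := by
  ext i j
  exact h.add _ (hM i j) _ (hN i j)

theorem Fn.zerom (h : Fn π I lam) : (0 : M2 A).map lam = 0 := by
  ext i j
  exact h.zero

theorem meml (N : M2 A) {M : M2 A} (hM : ∀ i j, M i j ∈ I) (i j : Fin 2) : (N * M) i j ∈ I := by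
  rw [Matrix.mul_apply]
  exact I.sum_mem fun k _ => I.mul_mem_left _ (hM k j)

theorem memr {M : M2 A} (hM : ∀ i j, M i j ∈ I) (N : M2 A) (i j : Fin 2) : (M * N) i j ∈ I := by
  rw [Matrix.mul_apply]
  exact I.sum_mem fun k _ => I.mul_mem_right _ (hM i k)

/-- linear forms separate -/
theorem sep (hs : Function.Surjective π) {I I' : Ideal A}
    (h : ∀ b, π b = 0 → ∀ x ∈ I, b * x ∈ I') {x : A} (hx : x ∈ I) (hn : x ∉ I') :
    ∃ lam : A → F, Fn π I lam ∧ (∀ y ∈ I, y ∈ I' → lam y = 0) ∧ lam x = 1 := by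
  classical
  let N : Submodule A I := Submodule.comap I.subtype I'
  have ht : Module.IsTorsionBySet A (I ⧸ N) (RingHom.ker π) := by
    rintro v ⟨b, hb⟩
    obtain ⟨y, rfl⟩ := N.mkQ_surjective v
    exact (Submodule.Quotient.mk_eq_zero N).2 (h b hb y y.2)
  let e := RingHom.quotientKerEquivOfSurjective hs
  letI := ht.module
  letI : Module F (I ⧸ N) := Module.compHom _ e.symm.toRingHom
  have sm : ∀ (b : A) (v : I ⧸ N), π b • v = b • v := fun b v => by
    show e.symm (π b) • v = _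
    rw [show e.symm (π b) = Ideal.Quotient.mk _ b from e.symm_apply_eq.2 rfl]
    rfl
  obtain ⟨f, hf⟩ := Module.Projective.exists_dual_eq_one F (x := N.mkQ ⟨x, hx⟩)
    fun k => hn ((Submodule.Quotient.mk_eq_zero N).1 k)
  refine ⟨fun y => if k : y ∈ I then f (N.mkQ ⟨y, k⟩) else 0, ⟨fun y hy z hz => ?_,
    fun b y hy => ?_⟩, fun y hy k => ?_, by simp only [dif_pos hx, hf]⟩
  · simp only [dif_pos hy, dif_pos hz, dif_pos (I.add_mem hy hz)]
    rw [← map_add, ← map_add]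
    rfl
  · simp only [dif_pos hy, dif_pos (I.mul_mem_left b hy)]
    rw [← smul_eq_mul (π b), ← map_smul, sm, ← map_smul]
    rfl
  · simp only [dif_pos hy]
    rw [show N.mkQ ⟨y, hy⟩ = 0 from (Submodule.Quotient.mk_eq_zero N).2 k, map_zero]

end fn

variable {O F ι : Type} [CommRing O] [Field F] {S : Dt O F ι}

theorem mxm (ρ : GQ →* GL (Fin 2) F) (g h : GQ) : mx ρ (g * h) = mx ρ g * mx ρ h :=
  congrArg Units.val (map_mul ρ g h)

theorem mx1 (ρ : GQ →* GL (Fin 2) F) : mx ρ 1 = 1 := congrArg Units.val (map_one ρ)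

theorem mxi (ρ : GQ →* GL (Fin 2) F) (g : GQ) : mx ρ g * mx ρ g⁻¹ = 1 := by
  rw [← mxm, mul_inv_cancel, mx1]

theorem mxi' (ρ : GQ →* GL (Fin 2) F) (g : GQ) : mx ρ g⁻¹ * mx ρ g = 1 := by
  rw [← mxm, inv_mul_cancel, mx1]

/-- the image of a representation -/
def pm {G A B : Type} [Group G] [CommRing A] [CommRing B] (u : A →+* B) (ρ : G →* M2 A) :
    G →* M2 B := (u.mapMatrix : M2 A →+* M2 B).toMonoidHom.comp ρ

theorem pm_apply {G A B : Type} [Group G] [CommRing A] [CommRing B] (u : A →+* B) (ρ : G →* M2 A)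
    (g : G) : pm u ρ g = (ρ g).map u := rfl

theorem pm_one {G A B : Type} [Group G] [CommRing A] [CommRing B] (u : A →+* B) (ρ : G →* M2 A)
    {g : G} (h : ρ g = 1) : pm u ρ g = 1 := by
  rw [pm_apply, h, Matrix.map_one _ (map_zero _) (map_one _)]

/-- the product of two representations -/
def prd {G A B : Type} [Group G] [CommRing A] [CommRing B] (ρ : G →* M2 A) (ρ' : G →* M2 B) :
    G →* M2 (A × B) :=
  ⟨⟨fun g => Matrix.of fun i j => (ρ g i j, ρ' g i j), by
    ext i j <;> simp [Matrix.one_apply] <;> split_ifs <;> rfl⟩, fun g k => by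
    ext i j <;> simp [Matrix.mul_apply]⟩

theorem prd_det {G A B : Type} [Group G] [CommRing A] [CommRing B] (ρ : G →* M2 A)
    (ρ' : G →* M2 B) (g : G) : (prd ρ ρ' g).det = ((ρ g).det, (ρ' g).det) :=
  Prod.ext ((RingHom.fst A B).map_det (prd ρ ρ' g)) ((RingHom.snd A B).map_det (prd ρ ρ' g))

theorem Adm.map {A B : Type} [CommRing A] [CommRing B] {φ : PP O ι →+* A} {ρ : GQ →* M2 A}
    (h : Adm S φ ρ) (u : A →+* B) : Adm S (u.comp φ) (pm u ρ) where
  gen i := by rw [pm_apply, h.gen]; rfl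
  det g := by rw [pm_apply, ← RingHom.mapMatrix_apply, ← RingHom.map_det, h.det]; rfl
  opn := opn_of_le ρ _ h.opn fun g => pm_one u ρ
  unr l hl P hP g hg := pm_one u ρ (h.unr l hl P hP g hg)
  res g i j := (h.res g i j).imp fun p hp => ⟨congrArg u hp.1, hp.2⟩

theorem Adm.pull {A B : Type} [CommRing A] [CommRing B] {φ : PP O ι →+* A} (u : A →+* B)
    (hu : Function.Injective u) {ρ : GQ →* M2 B} (h : Adm S (u.comp φ) ρ) :
    ∃ ρ' : GQ →* M2 A, Adm S φ ρ' ∧ pm u ρ' = ρ := by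
  choose p hp hp' using h.res
  have inj : ∀ M N : M2 A, M.map u = N.map u → M = N := fun M N e =>
    Matrix.ext fun i j => hu (congrFun (congrFun e i) j)
  have e : ∀ g, (Matrix.of fun i j => φ (p g i j) : M2 A).map u = ρ g := fun g =>
    Matrix.ext fun i j => hp g i j
  have e1 : (1 : M2 A).map u = 1 := Matrix.map_one _ (map_zero _) (map_one _)
  let ρ' : GQ →* M2 A := ⟨⟨fun g => Matrix.of fun i j => φ (p g i j),
    inj _ _ (by rw [e, map_one, e1])⟩,
    fun g k => inj _ _ (by rw [Matrix.map_mul, e, e, e, map_mul])⟩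
  have e' : ∀ g, (ρ' g).map u = ρ g := e
  refine ⟨ρ', ⟨fun i => inj _ _ (by rw [e', h.gen]; rfl), fun g => hu ?_,
    opn_of_le ρ _ h.opn fun g k => inj _ _ (by rw [e', k, e1]),
    fun l hl P hP g hg => inj _ _ (by rw [e', h.unr l hl P hP g hg, e1]),
    fun g i j => ⟨p g i j, rfl, hp' g i j⟩⟩, MonoidHom.ext e'⟩
  rw [RingHom.map_det, RingHom.mapMatrix_apply, e', h.det]
  rfl

variable [IsLocalRing O]

theorem Dt.Ok.max (h : S.Ok) {p : PP O ι} : S.π0 p = 0 ↔ p ∈ maximalIdeal (PP O ι) :=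
  (h.ker _).trans (P022D.L2b.mem_max_iff p).symm

theorem Dt.Ok.sur (h : S.Ok) : Function.Surjective S.π0 := fun x => by
  obtain ⟨c, rfl⟩ := h.surj x
  exact ⟨MvPowerSeries.C c, by simp [Dt.π0]⟩

theorem Dt.Ok.Z (h : S.Ok) (i : ι) : (S.Z i).map S.π0 = mx S.rb (S.gam i) := by
  rw [← h.lift]
  ext a b
  simp [Dt.Z, Dt.π0]

/-- the residue map of a quotient -/
def Dt.Ok.πq (h : S.Ok) {a : Ideal (PP O ι)} (ha : a ≤ maximalIdeal (PP O ι)) :
    PP O ι ⧸ a →+* F := Ideal.Quotient.lift a S.π0 fun _ k => h.max.2 (ha k)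

theorem Adm.red {A : Type} [CommRing A] {φ : PP O ι →+* A} {ρ : GQ →* M2 A} (h : Adm S φ ρ)
    {π : A →+* F} (hπ : ∀ p, π (φ p) = S.π0 p) (g : GQ) : (ρ g).map π = mx S.rb g := by
  ext i j
  obtain ⟨p, h1, h2⟩ := h.res g i j
  rw [Matrix.map_apply, ← h1, hπ, h2]

theorem uniq1 (hS : S.Ok) {A : Type} [CommRing A] {φ : PP O ι →+* A} {ρ ρ' : GQ →* M2 A}
    (h : Adm S φ ρ) (h' : Adm S φ ρ') {π : A →+* F} (hπ : ∀ p, π (φ p) = S.π0 p) (n : ℕ) :
    ∀ g i j, (ρ g - ρ' g) i j ∈ RingHom.ker π ^ n := by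
  have hs : Function.Surjective π := fun x => (hS.sur x).elim fun p hp => ⟨φ p, (hπ p).trans hp⟩
  have r := h.red hπ
  have r' := h'.red hπ
  induction n with
  | zero => intro g i j; simp
  | succ n ih =>
    intro g0 i0 j0
    by_contra hn
    obtain ⟨lam, f, -, e⟩ := sep hs (I' := RingHom.ker π ^ (n + 1)) (fun b hb x hx => by
      rw [pow_succ']; exact Ideal.mul_mem_mul hb hx) (ih g0 i0 j0) hn
    have z : ∀ g, ρ g = ρ' g → (ρ g - ρ' g).map lam * mx S.rb g⁻¹ = 0 := fun g k => by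
      rw [k, sub_self, f.zerom, zero_mul]
    have c := hS.gen (fun g => (ρ g - ρ' g).map lam * mx S.rb g⁻¹) ⟨fun g _ k _ => by
        have e1 : ρ (g * k) - ρ' (g * k) = (ρ g - ρ' g) * ρ k + ρ' g * (ρ k - ρ' k) := by
          rw [map_mul, map_mul, sub_mul, mul_sub, sub_add_sub_cancel]
        beta_reduce
        rw [e1, f.addm (memr (ih g) _) (meml _ (ih k)), f.mulr (ih g), f.mull _ (ih k), r, r',
          mul_inv_rev, mxm, add_mul, mul_assoc, ← mul_assoc (mx S.rb k), mxi, one_mul]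
        simp only [mul_assoc],
      fun g hg => absurd trivial hg,
      ⟨ρ.toHomUnits.ker ⊓ ρ'.toHomUnits.ker,
        ((ker_set ρ).symm ▸ h.opn : IsOpen (ρ.toHomUnits.ker : Set GQ)).inter
          ((ker_set ρ').symm ▸ h'.opn : IsOpen (ρ'.toHomUnits.ker : Set GQ)),
        fun g hg => z g ((Units.ext_iff.1 hg.1).trans (Units.ext_iff.1 hg.2).symm)⟩,
      fun l hl P hP g hg => z g ((h.unr l hl P hP g hg).trans (h'.unr l hl P hP g hg).symm)⟩
      fun i => z _ ((h.gen i).trans (h'.gen i).symm)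
    have c1 := congrArg (· * mx S.rb g0) (congrFun c g0)
    simp only [mul_assoc, mxi', mul_one, Pi.zero_apply, zero_mul] at c1
    have c2 := congrFun (congrFun c1 i0) j0
    rw [Matrix.map_apply, e] at c2
    exact one_ne_zero c2

theorem uniq0 (hS : S.Ok) {a : Ideal (PP O ι)} {k : ℕ} (hk : maximalIdeal (PP O ι) ^ k ≤ a)
    {ρ ρ' : GQ →* M2 (PP O ι ⧸ a)} (h : Adm S (Ideal.Quotient.mk a) ρ)
    (h' : Adm S (Ideal.Quotient.mk a) ρ') : ρ = ρ' := by
  by_cases ha : a = ⊤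
  · subst ha
    exact MonoidHom.ext fun g => Matrix.ext fun i j => Subsingleton.elim _ _
  have ha' := le_maximalIdeal ha
  set π := hS.πq ha' with hπ
  have key := uniq1 hS h h' (π := π) fun _ => rfl
  have hm : RingHom.ker π ^ k = ⊥ := by
    have : RingHom.ker π ≤ (maximalIdeal (PP O ι)).map (Ideal.Quotient.mk a) := fun x hx => by
      obtain ⟨p, rfl⟩ := Ideal.Quotient.mk_surjective x
      exact Ideal.mem_map_of_mem _ (hS.max.1 hx)
    refine eq_bot_iff.2 ((Ideal.pow_right_mono this k).trans ?_)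
    rw [← Ideal.map_pow, Ideal.map_le_iff_le_comap]
    exact fun x hx => Ideal.Quotient.eq_zero_iff_mem.2 (hk hx)
  refine MonoidHom.ext fun g => Matrix.ext fun i j => sub_eq_zero.1 ?_
  have := key k g i j
  rwa [hm, Ideal.mem_bot] at this

theorem go_ker {A : Type} [CommRing A] {φ : PP O ι →+* A} {ρ : GQ →* M2 A}
    (hk : ∃ k : ℕ, maximalIdeal (PP O ι) ^ k ≤ RingHom.ker φ) (h : Adm S φ ρ) :
    Go S (RingHom.ker φ) :=
  ⟨hk, (Adm.pull φ.kerLift φ.kerLift_injective (φ := Ideal.Quotient.mk _) h).imp fun _ k => k.1⟩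

theorem univ {A : Type} [CommRing A] {φ : PP O ι →+* A} {ρ : GQ →* M2 A}
    (hk : ∃ k : ℕ, maximalIdeal (PP O ι) ^ k ≤ RingHom.ker φ) (h : Adm S φ ρ) :
    Jac S ≤ RingHom.ker φ := sInf_le (go_ker hk h)

theorem uniq (hS : S.Ok) {A : Type} [CommRing A] {φ : PP O ι →+* A} {ρ ρ' : GQ →* M2 A}
    (hk : ∃ k : ℕ, maximalIdeal (PP O ι) ^ k ≤ RingHom.ker φ) (h : Adm S φ ρ) (h' : Adm S φ ρ') :
    ρ = ρ' := by
  obtain ⟨k, hk⟩ := hk
  obtain ⟨σ, a, rfl⟩ := Adm.pull φ.kerLift φ.kerLift_injective (φ := Ideal.Quotient.mk _) h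
  obtain ⟨σ', a', rfl⟩ := Adm.pull φ.kerLift φ.kerLift_injective (φ := Ideal.Quotient.mk _) h'
  rw [uniq0 hS hk a a']

theorem Go.mono {a b : Ideal (PP O ι)} (h : Go S a) (hab : a ≤ b) : Go S b :=
  ⟨h.1.imp fun _ k => k.trans hab, h.2.elim fun ρ k => ⟨_, k.map (Ideal.Quotient.factor hab)⟩⟩

theorem adm_res (hS : S.Ok) : Adm S S.π0 ((Units.coeHom _).comp S.rb) where
  gen i := (hS.Z i).symm
  det g := by
    show (mx S.rb g).det = _
    rw [← hS.det]; simp [Dt.π0]
  opn := by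
    convert hS.opn using 2
    exact funext fun g => propext ⟨fun e => Units.ext e, fun e => congrArg Units.val e⟩
  unr l hl P hP g hg := congrArg Units.val (hS.unr l hl P hP g hg)
  res g i j := (hS.sur (mx S.rb g i j)).imp fun p hp => ⟨hp, hp⟩

theorem ker_π0 (hS : S.Ok) : RingHom.ker S.π0 = maximalIdeal (PP O ι) := Ideal.ext fun _ => hS.max

theorem go_max (hS : S.Ok) : Go S (maximalIdeal (PP O ι)) :=
  ker_π0 hS ▸ go_ker ⟨1, by rw [ker_π0 hS, pow_one]⟩ (adm_res hS)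

theorem jac_le (hS : S.Ok) : Jac S ≤ maximalIdeal (PP O ι) := sInf_le (go_max hS)

theorem Go.inf (hS : S.Ok) {a b : Ideal (PP O ι)} (ha : Go S a) (hb : Go S b) : Go S (a ⊓ b) := by
  by_cases h0 : a = ⊤
  · rwa [h0, top_inf_eq]
  obtain ⟨⟨k, hk⟩, ρ, h⟩ := ha
  obtain ⟨⟨k', hk'⟩, ρ', h'⟩ := hb
  have e := uniq0 hS (a := a ⊔ b) (hk.trans le_sup_left)
    (h.map (Ideal.Quotient.factor le_sup_left)) (h'.map (Ideal.Quotient.factor le_sup_right))
  let σ := prd ρ ρ'
  have one : ∀ g, ρ g = 1 → ρ' g = 1 → σ g = 1 := fun g a1 a2 => by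
    rw [← map_one σ]
    show Matrix.of (fun i j => (ρ g i j, ρ' g i j)) = Matrix.of fun i j => (ρ 1 i j, ρ' 1 i j)
    rw [a1, a2, map_one, map_one]
  have k1 : RingHom.ker ((Ideal.Quotient.mk a).prod (Ideal.Quotient.mk b)) = a ⊓ b :=
    Ideal.ext fun x => by
      simp [RingHom.mem_ker, Prod.ext_iff, Ideal.Quotient.eq_zero_iff_mem]
  rw [← k1]
  refine go_ker (ρ := σ) ⟨k + k', ?_⟩ ⟨fun i => ?_, fun g => ?_, ?_, fun l hl P hP g hg =>
    one g (h.unr l hl P hP g hg) (h'.unr l hl P hP g hg), fun g i j => ?_⟩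
  · rw [k1]
    exact le_inf ((Ideal.pow_le_pow_right (by omega)).trans hk)
      ((Ideal.pow_le_pow_right (by omega)).trans hk')
  · show Matrix.of (fun a b => (ρ (S.gam i) a b, ρ' (S.gam i) a b)) = _
    rw [h.gen, h'.gen]
    rfl
  · rw [prd_det, h.det, h'.det]
    rfl
  · refine opn_of_le (ρ.prod ρ') σ ?_ fun g k => one g (congrArg Prod.fst k) (congrArg Prod.snd k)
    convert h.opn.inter h'.opn using 1
    exact Set.ext fun g => Prod.ext_iff
  · obtain ⟨p, p1, p2⟩ := h.res g i j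
    obtain ⟨p', p1', -⟩ := h'.res g i j
    have e1 : Ideal.Quotient.factor le_sup_left (ρ g i j) =
        Ideal.Quotient.factor (le_sup_right : b ≤ a ⊔ b) (ρ' g i j) :=
      congrFun (congrFun (DFunLike.congr_fun e g) i) j
    rw [← p1, ← p1'] at e1
    obtain ⟨x, hx, y, hy, e2⟩ := Submodule.mem_sup.1 (Ideal.Quotient.eq.1 e1)
    refine ⟨p - x, Prod.ext ?_ ?_, ?_⟩
    · exact (Ideal.Quotient.eq.2 (by simpa using hx)).trans p1
    · exact (Ideal.Quotient.eq.2 (by
        rwa [show p - x - p' = y by linear_combination -e2])).trans p1'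
    · rw [map_sub, p2, hS.max.2 (le_maximalIdeal h0 hx), sub_zero]

theorem fin_pow [IsNoetherianRing O] [Finite F] [Fintype ι] (hS : S.Ok) (k : ℕ) :
    Finite (PP O ι ⧸ maximalIdeal (PP O ι) ^ k) := by
  have : Finite (PP O ι ⧸ maximalIdeal (PP O ι)) := ker_π0 hS ▸
    Finite.of_injective _ S.π0.kerLift_injective
  exact Ideal.finite_quotient_pow (IsNoetherian.noetherian _) k

theorem go_jac [IsNoetherianRing O] [IsAdicComplete (maximalIdeal O) O] [Finite F] [Fintype ι]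
    (hS : S.Ok) (k : ℕ) : Go S (Jac S ⊔ maximalIdeal (PP O ι) ^ k) := by
  have := P022D.L2b.isAdicCompleteV (σ := Ix ι) (V := O) inferInstance
  obtain ⟨I, h1, h2⟩ := P022D.L2b.chevalley (maximalIdeal (PP O ι)) (fin_pow hS) {a | Go S a}
    ⟨_, go_max hS⟩ (fun I h I' h' => ⟨_, Go.inf hS h h', inf_le_left, inf_le_right⟩)
    (fun I h => h.1) k
  exact Go.mono h1 h2

theorem uni : UNI := fun _ _ _ _ _ _ _ _ _ _ _ _ hS =>
  ⟨go_jac hS, fun _ _ _ _ hk h => univ hk h, fun _ _ _ _ _ hk h h' => uniq hS hk h h'⟩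

end Vale.Agent.P022G.Pres
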