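import Vale.Agent.P022G.Pres.Z1

/-!
# P022G, the saved equations and the count of the extra equations
-/

set_option linter.all false

noncomputable section

namespace Vale.Agent.P022G.Pres.Cn

open NumberField IsLocalRing
open Vale.Agent.P022
open Vale.Agent.P027M.S (Inert mx)
open Vale.Agent.P022D.Sel (M2 IsDec)
open Vale.Agent.P022E.GW (CHR)
open Vale.Agent.P022G.Obs (Dz Nd FX OBS)

variable {O F ι : Type} [CommRing O] [Field F] (S : Dt O F ι)

theorem lin_add (p q : PP O ι) (s : Ix ι) : S.lin (p + q) s = S.lin p s + S.lin q s := by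
  simp only [Dt.lin, map_add]

theorem lin_sub (p q : PP O ι) (s : Ix ι) : S.lin (p - q) s = S.lin p s - S.lin q s := by
  simp only [Dt.lin, map_sub]

theorem lin_C (c : O) (s : Ix ι) : S.lin (MvPowerSeries.C c) s = 0 := by
  classical
  rw [Dt.lin, MvPowerSeries.coeff_C, if_neg (by simp), map_zero]

theorem lin_mul (p q : PP O ι) (s : Ix ι) :
    S.lin (p * q) s = S.π0 p * S.lin q s + S.lin p s * S.π0 q := by
  classical
  simp only [Dt.lin, Dt.π0, MvPowerSeries.coeff_mul, Finsupp.antidiagonal_single, Finset.sum_map,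
    Finset.Nat.antidiagonal_succ, Finset.Nat.antidiagonal_zero]
  simp

open Classical in
theorem lin_Z (i : ι) (a b : Fin 2) (s : Ix ι) :
    S.lin (S.Z i a b) s = if s = (i, a, b) then 1 else 0 := by
  rw [Dt.Z, Matrix.of_apply, lin_add, lin_C, zero_add, Dt.lin, MvPowerSeries.coeff_index_single_X]
  split_ifs <;> simp

/-- the linear terms of a matrix -/
def Lm (s : Ix ι) (M : M2 (PP O ι)) : M2 F := M.map fun p => S.lin p s

theorem Lm_mul (s : Ix ι) (M N : M2 (PP O ι)) :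
    Lm S s (M * N) = M.map S.π0 * Lm S s N + Lm S s M * N.map S.π0 := by
  ext a b
  simp only [Lm, Matrix.map_apply, Matrix.mul_apply, Fin.sum_univ_two, Matrix.add_apply, lin_add,
    lin_mul]
  ring

theorem Lm_pow (s : Ix ι) {M : M2 (PP O ι)} (h : M.map S.π0 = 1) (n : ℕ) :
    (M ^ n).map S.π0 = 1 ∧ Lm S s (M ^ n) = (n : F) • Lm S s M := by
  induction n with
  | zero =>
    refine ⟨by rw [pow_zero, Matrix.map_one _ (map_zero _) (map_one _)], ?_⟩
    ext a b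
    have h1 : ((1 : M2 (PP O ι)) a b) = MvPowerSeries.C ((1 : M2 O) a b) := by
      fin_cases a <;> fin_cases b <;> simp
    simp only [pow_zero, Lm, Matrix.map_apply, h1, lin_C, Nat.cast_zero, zero_smul,
      Matrix.zero_apply]
  | succ n ih =>
    refine ⟨by rw [pow_succ, Matrix.map_mul, ih.1, h, one_mul], ?_⟩
    rw [pow_succ, Lm_mul, ih.1, ih.2, h, one_mul, mul_one, Nat.cast_succ, add_smul, one_smul,
      add_comm]

/-- the determinant equation -/
def dt (i : ι) : PP O ι := (S.Z i).det - MvPowerSeries.C (S.δ (S.gam i))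

variable [IsLocalRing O] {S}

theorem piZ (hS : S.Ok) (i : ι) : (S.Z i).map S.π0 = mx S.rb (S.gam i) := by
  rw [← hS.lift]
  ext a b
  simp [Dt.Z, Dt.π0]

theorem piZ' (hS : S.Ok) (i : ι) (a b : Fin 2) : S.π0 (S.Z i a b) = mx S.rb (S.gam i) a b :=
  congrFun (congrFun (piZ hS i) a) b

theorem lin_dt (hS : S.Ok) (i : ι) (s : Ix ι) : S.lin (dt S i) s =
    mx S.rb (S.gam i) 0 0 * S.lin (S.Z i 1 1) s + S.lin (S.Z i 0 0) s * mx S.rb (S.gam i) 1 1 -
    (mx S.rb (S.gam i) 0 1 * S.lin (S.Z i 1 0) s +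
      S.lin (S.Z i 0 1) s * mx S.rb (S.gam i) 1 0) := by
  rw [dt, lin_sub, lin_C, sub_zero, Matrix.det_fin_two, lin_sub, lin_mul, lin_mul, piZ' hS,
    piZ' hS, piZ' hS, piZ' hS]

theorem mem_jac {p : PP O ι} (h : ∀ (a : Ideal (PP O ι)) (ρ : GQ →* M2 (PP O ι ⧸ a)),
    (∃ k : ℕ, maximalIdeal (PP O ι) ^ k ≤ a) → Adm S (Ideal.Quotient.mk a) ρ →
    Ideal.Quotient.mk a p = 0) : p ∈ Jac S :=
  Ideal.mem_sInf.2 fun {a} ha => ha.2.elim fun ρ k =>
    Ideal.Quotient.eq_zero_iff_mem.1 (h a ρ ha.1 k)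

theorem dt_mem (i : ι) : dt S i ∈ Jac S := mem_jac fun a ρ _ h => by
  rw [dt, map_sub, ← h.det, h.gen, RingHom.map_det, RingHom.mapMatrix_apply, sub_self]

variable (S) in
/-- a saved equation on the generator `i` -/
def Sv (Lst : Ideal (PP O ι)) (i : ι) : Prop := ∃ p, p ∈ Jac S ∧ p ∈ Lst ∧
  (∀ s : Ix ι, s.1 ≠ i → S.lin p s = 0) ∧
  ∀ a : F, ¬ ∀ x y, S.lin p (i, x, y) = a * S.lin (dt S i) (i, x, y)

theorem tr_jac {i : ι} (h2 : S.gam i * S.gam i = 1) (hd : S.δ (S.gam i) = -1) :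
    (S.Z i).trace ∈ Jac S := mem_jac fun a ρ _ h => by
  have e1 : ρ (S.gam i) * ρ (S.gam i) = 1 := by rw [← map_mul, h2, map_one]
  have e2 := h.det (S.gam i)
  rw [hd, map_neg, map_one, map_neg, map_one, Matrix.det_fin_two] at e2
  have a00 := congrFun (congrFun e1 0) 0
  have a01 := congrFun (congrFun e1 0) 1
  simp only [Matrix.mul_apply, Fin.sum_univ_two, Matrix.one_apply_eq, ne_eq, zero_ne_one,
    not_false_eq_true, Matrix.one_apply_ne] at a00 a01
  have e3 : Ideal.Quotient.mk a (S.Z i).trace = ρ (S.gam i) 0 0 + ρ (S.gam i) 1 1 := by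
    rw [h.gen, Matrix.trace_fin_two, map_add]; rfl
  rw [e3]
  linear_combination (ρ (S.gam i) 0 0 - (ρ (S.gam i) 0 0 + ρ (S.gam i) 1 1)) * a00 +
    ρ (S.gam i) 0 0 * e2 + ρ (S.gam i) 1 0 * a01

/-- the trace of an involution with antidiagonal reduction is saved -/
theorem sv_tr (hS : S.Ok) {Lst : Ideal (PP O ι)} {i : ι} (h2 : S.gam i * S.gam i = 1)
    (hd : S.δ (S.gam i) = -1) (ha : mx S.rb (S.gam i) 1 1 = 0) (hL : (S.Z i).trace ∈ Lst) :
    Sv S Lst i := by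
  refine ⟨_, tr_jac h2 hd, hL, fun s hs => ?_, fun a h => ?_⟩
  · rw [Matrix.trace_fin_two, lin_add, lin_Z, lin_Z, if_neg fun e => hs (by rw [e]),
      if_neg fun e => hs (by rw [e]), add_zero]
  · have h1 := h 0 0
    rw [Matrix.trace_fin_two, lin_add, lin_dt hS] at h1
    simp [lin_Z, ha] at h1

variable (S) in
/-- the tame relation -/
def tm (i j : ι) (l : ℕ) : M2 (PP O ι) := S.Z j * S.Z i - S.Z i ^ l * S.Z j

/-- an entry of the tame relation at an inert prime is saved -/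
theorem sv_tame (hS : S.Ok) {Lst : Ideal (PP O ι)} {i j : ι} {l : ℕ}
    (hrel : ∀ (a : Ideal (PP O ι)) (ρ : GQ →* M2 (PP O ι ⧸ a)),
      (∃ k : ℕ, maximalIdeal (PP O ι) ^ k ≤ a) → Adm S (Ideal.Quotient.mk a) ρ →
      ρ (S.gam j) * ρ (S.gam i) = ρ (S.gam i) ^ l * ρ (S.gam j))
    (hτ : mx S.rb (S.gam i) = 1) (hφ : mx S.rb (S.gam j) 0 0 = 0)
    (hL : tm S i j l 0 0 ∈ Lst) : Sv S Lst i := by
  have hl : ∀ s, S.lin (tm S i j l 0 0) s = (mx S.rb (S.gam j) * Lm S s (S.Z i) -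
      (l : F) • Lm S s (S.Z i) * mx S.rb (S.gam j)) 0 0 := fun s => by
    have h1 := Lm_pow S s ((piZ hS i).trans hτ) l
    have h2 := congrFun (congrFun (Lm_mul S s (S.Z j) (S.Z i)) 0) 0
    have h3 := congrFun (congrFun (Lm_mul S s (S.Z i ^ l) (S.Z j)) 0) 0
    rw [h1.1, h1.2, piZ hS, one_mul] at h3
    rw [piZ hS, piZ hS, hτ, mul_one] at h2
    rw [tm, Matrix.sub_apply, lin_sub]
    refine (congrArg₂ (· - ·) h2 h3).trans ?_
    simp only [Matrix.add_apply, Matrix.sub_apply]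
    ring
  refine ⟨_, mem_jac fun a ρ hk h => ?_, hL, fun s hs => ?_, fun a h => ?_⟩
  · have h1 := hrel a ρ hk h
    rw [h.gen, h.gen, ← RingHom.mapMatrix_apply, ← RingHom.mapMatrix_apply, ← map_pow, ← map_mul,
      ← map_mul, ← sub_eq_zero, ← map_sub] at h1
    exact congrFun (congrFun h1 0) 0
  · have h1 : Lm S s (S.Z i) = 0 := by
      ext a b
      rw [Lm, Matrix.map_apply, lin_Z, if_neg fun e => hs (by rw [e]), Matrix.zero_apply]
    rw [hl, h1]
    simp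
  · have h1 := h 1 0
    rw [hl, lin_dt hS, hτ] at h1
    have h2 := congrFun (congrFun (mx_inv (ρ := S.rb) (S.gam j)) 0) 0
    simp [Lm, Matrix.mul_apply, Fin.sum_univ_two, lin_Z, hφ] at h1
    rw [Matrix.mul_apply, Fin.sum_univ_two, hφ, h1] at h2
    simp at h2

/-- the tame relation holds where the tame generator is trivial -/
theorem tm_one {Lst : Ideal (PP O ι)} {i j : ι} (l : ℕ) (h : ∀ a b, (S.Z i - 1) a b ∈ Lst) (a b) :
    tm S i j l a b ∈ Lst := by
  have h1 : (Ideal.Quotient.mk Lst).mapMatrix (S.Z i) = 1 := by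
    rw [← sub_eq_zero, ← map_one (Ideal.Quotient.mk Lst).mapMatrix, ← map_sub]
    ext a b
    exact Ideal.Quotient.eq_zero_iff_mem.2 (h a b)
  have h2 : (Ideal.Quotient.mk Lst).mapMatrix (tm S i j l) = 0 := by
    rw [tm, map_sub, map_mul, map_mul, map_pow, h1, one_pow, one_mul, mul_one, sub_self]
  exact Ideal.Quotient.eq_zero_iff_mem.1 (congrFun (congrFun h2 a) b)

/-- the tame relation holds on the unipotent type in characteristic two -/
theorem tm_uni {Lst : Ideal (PP O ι)} {i j : ι} {l : ℕ} (hl : Odd l) (h2 : (2 : PP O ι) ∈ Lst)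
    (hd : (S.Z i).det - 1 ∈ Lst) (h1 : (S.Z i).trace ∈ Lst) (h3 : (S.Z j).trace ∈ Lst)
    (h4 : (S.Z i * S.Z j).trace ∈ Lst) (a b) : tm S i j l a b ∈ Lst := by
  let q := Ideal.Quotient.mk Lst
  let X := q.mapMatrix (S.Z i)
  let Y := q.mapMatrix (S.Z j)
  have c2 : (2 : PP O ι ⧸ Lst) = 0 := by
    rw [← map_ofNat q 2]; exact Ideal.Quotient.eq_zero_iff_mem.2 h2
  have e0 : X 0 0 * X 1 1 - X 0 1 * X 1 0 - 1 = 0 := by
    have := Ideal.Quotient.eq_zero_iff_mem.2 hd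
    rwa [Matrix.det_fin_two, map_sub, map_sub, map_mul, map_mul, map_one] at this
  have e1 : X 0 0 + X 1 1 = 0 := by
    have := Ideal.Quotient.eq_zero_iff_mem.2 h1
    rwa [Matrix.trace_fin_two, map_add] at this
  have e3 : Y 0 0 + Y 1 1 = 0 := by
    have := Ideal.Quotient.eq_zero_iff_mem.2 h3
    rwa [Matrix.trace_fin_two, map_add] at this
  have e4 : X 0 0 * Y 0 0 + X 0 1 * Y 1 0 + (X 1 0 * Y 0 1 + X 1 1 * Y 1 1) = 0 := by
    have := Ideal.Quotient.eq_zero_iff_mem.2 h4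
    simp only [Matrix.trace_fin_two, Matrix.mul_apply, Fin.sum_univ_two, map_add, map_mul]
      at this
    exact this
  have x2 : X * X = 1 := by
    ext a b
    fin_cases a <;> fin_cases b <;> simp [Matrix.mul_apply, Fin.sum_univ_two]
    · linear_combination X 0 0 * e1 - e0 - c2
    · linear_combination X 0 1 * e1
    · linear_combination X 1 0 * e1
    · linear_combination X 1 1 * e1 - e0 - c2
  have xl : X ^ l = X := by
    obtain ⟨k, rfl⟩ := hl
    rw [pow_succ, pow_mul, pow_two, x2, one_pow, one_mul]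
  have h5 : q.mapMatrix (tm S i j l) = 0 := by
    rw [tm, map_sub, map_mul, map_mul, map_pow]
    change Y * X - X ^ l * Y = 0
    rw [xl]
    ext a b
    fin_cases a <;> fin_cases b <;> simp [Matrix.mul_apply, Fin.sum_univ_two]
    · linear_combination e4 - X 1 1 * e3 - Y 0 0 * e1 + (X 1 1 * Y 0 0 - X 0 0 * Y 0 0
        - X 0 1 * Y 1 0 + X 0 0 * Y 0 0) * c2
    · linear_combination X 0 1 * e3 + Y 0 1 * e1 - (X 0 0 * Y 0 1 + X 0 1 * Y 1 1) * c2
    · linear_combination X 1 0 * e3 + Y 1 0 * e1 - (X 1 0 * Y 0 0 + X 1 1 * Y 1 0) * c2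
    · linear_combination e4 - X 1 1 * e3 - Y 0 0 * e1 + (X 1 1 * Y 0 0 - X 1 0 * Y 0 1) * c2
  exact Ideal.Quotient.eq_zero_iff_mem.1 (congrFun (congrFun h5 a) b)

theorem saved [Fintype ι] (hS : S.Ok) {Lst : Ideal (PP O ι)} (hd : ∀ i, dt S i ∈ Lst)
    {K : Type} [Fintype K] (κ : K → ι) (hκ : Function.Injective κ) (h : ∀ k, Sv S Lst (κ k)) :
    ∃ j : Fin (Fintype.card ι + Fintype.card K) → PP O ι, (∀ a, j a ∈ Jac S ∧ j a ∈ Lst) ∧
      LinearIndependent F (fun a => S.lin (j a)) := by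
  classical
  choose p h1 h2 h3 h4 using h
  have hd0 : ∀ i (s : Ix ι), s.1 ≠ i → S.lin (dt S i) s = 0 := fun i s hs => by
    have e : ∀ a b, S.lin (S.Z i a b) s = 0 := fun a b => by
      rw [lin_Z, if_neg fun e => hs (by rw [e])]
    simp [lin_dt hS, e]
  have li : LinearIndependent F (fun a : ι ⊕ K => S.lin (Sum.elim (dt S) p a)) := by
    rw [Fintype.linearIndependent_iff]
    intro g hg
    have ev : ∀ i x y, g (Sum.inl i) * S.lin (dt S i) (i, x, y) +
        ∑ k, g (Sum.inr k) * S.lin (p k) (i, x, y) = 0 := fun i x y => by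
      have h5 := congrFun hg (i, x, y)
      rw [Finset.sum_apply, Fintype.sum_sum_type, Finset.sum_eq_single i
        (fun b _ hb => by rw [Pi.smul_apply, Sum.elim_inl, hd0 b _ hb.symm, smul_zero])
        (fun h => absurd (Finset.mem_univ _) h)] at h5
      exact h5
    have gr : ∀ k, g (Sum.inr k) = 0 := fun k => by
      by_contra hne
      refine h4 k (-g (Sum.inl (κ k)) / g (Sum.inr k)) fun x y => ?_
      have h5 := ev (κ k) x y
      rw [Finset.sum_eq_single k (fun b _ hb => by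
        rw [h3 b _ fun e => hb (hκ e).symm, mul_zero])
        (fun h => absurd (Finset.mem_univ _) h)] at h5
      field_simp
      linear_combination h5
    rintro (i | k)
    · by_contra hne
      have h5 : ∀ x y, S.lin (dt S i) (i, x, y) = 0 := fun x y => by
        have h6 := ev i x y
        simp only [gr, zero_mul, Finset.sum_const_zero, add_zero] at h6
        exact (mul_eq_zero.1 h6).resolve_left hne
      have a1 := h5 1 1
      have a2 := h5 1 0
      simp [lin_dt hS, lin_Z] at a1 a2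
      have h2 := congrFun (congrFun (mx_inv (ρ := S.rb) (S.gam i)) 0) 0
      rw [Matrix.mul_apply, Fin.sum_univ_two, a1, a2] at h2
      simp at h2
    · exact gr k
  let e : Fin (Fintype.card ι + Fintype.card K) ≃ ι ⊕ K :=
    (Fintype.equivFinOfCardEq (Fintype.card_sum (α := ι) (β := K))).symm
  refine ⟨fun a => Sum.elim (dt S) p (e a), fun a => ?_, li.comp e e.injective⟩
  show Sum.elim (dt S) p (e a) ∈ Jac S ∧ Sum.elim (dt S) p (e a) ∈ Lst
  rcases e a with i | k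
  · exact ⟨dt_mem i, hd i⟩
  · exact ⟨h1 k, h2 k⟩

/-- **the count** -/
theorem presN (hP : PRES) (hO : OBS) (hC : CHR) [IsNoetherianRing O]
    [IsAdicComplete (maximalIdeal O) O] [Finite F] [CharP F 2] [Fintype ι] (hS : S.Ok)
    {H : Subgroup GQ} (hz : Dz S.rb H) (hr : ∃ g ∈ H, mx S.rb g 0 0 ≠ mx S.rb g 1 1)
    (f1 : FX S.rb.ker S.T) (f2 : FX ⊤ S.T) (h2 : 2 ∈ S.T) {D : ℕ → Subgroup GQ}
    (hD : ∀ l ∈ S.T, IsDec l (D l : Set GQ)) {B : Finset ℕ} (hB : B ⊆ S.T) (b0 : 0 ∈ B)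
    (b2 : 2 ∉ B) {Lst : Ideal (PP O ι)} (hL : Lst ≤ maximalIdeal (PP O ι))
    (hl : ∀ l ∈ B, LOCL S Lst (D l)) (hd : ∀ i, dt S i ∈ Lst)
    (hu : ∀ l ∈ B, ∀ g ∈ D l, g ∈ H → mx S.rb g 0 0 = mx S.rb g 1 1)
    (κ : ℕ → ι) (hκ : Set.InjOn κ B) (hs : ∀ l ∈ B, (∃ g ∈ D l, g ∉ H) → Sv S Lst (κ l))
    (𝓗 : Set (PP O ι)) (hH : Ideal.span 𝓗 = Jac S) :
    ∃ (n : ℕ) (e : Fin n → PP O ι), n + Fintype.card ι + 3 * B.card + 3 ≤ 4 * Fintype.card ι ∧
      (∀ i, e i ∈ 𝓗) ∧ Jac S ≤ Ideal.span (Set.range e) ⊔ Lst := by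
  classical
  have hc := hO F S.rb H S.T B D (fun l => wd S.rb H (D l)) (D '' B) _ hz f1 f2 (hB b0) b0 hD
    (fun l _ h => ⟨l, h, rfl⟩) (fun l _ _ => nd_wd _) le_rfl
  obtain ⟨c, c1, c2⟩ := z1 hC hz hS.unr (hB b0) h2 hD hr
  obtain ⟨j, j1, j2⟩ := saved hS hd (K := B.filter fun l => ∃ g ∈ D l, g ∉ H) (fun k => κ k)
    (fun a b h => Subtype.ext (hκ (Finset.mem_filter.1 a.2).1 (Finset.mem_filter.1 b.2).1 h))
    fun k => hs k (Finset.mem_filter.1 k.2).1 (Finset.mem_filter.1 k.2).2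
  obtain ⟨n, e, h1, h3⟩ := hP O F ι S hS Lst hL _ _ hc (by rintro _ ⟨l, h, rfl⟩; exact hl l h)
    _ j j1 j2 _ c c1 c2 𝓗 hH
  refine ⟨n, e, ?_, h3⟩
  have s1 := Finset.sum_sdiff (f := fun l => wd S.rb H (D l)) hB
  have s2 : ∑ l ∈ B, wd S.rb H (D l) + (B.filter fun l => ∃ g ∈ D l, g ∉ H).card = 2 * B.card := by
    rw [Finset.card_filter, ← Finset.sum_add_distrib, mul_comm, ← smul_eq_mul, ← Finset.sum_const]
    refine Finset.sum_congr rfl fun l h => ?_
    unfold wd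
    rw [if_neg fun ⟨g, a1, a2, a3⟩ => a3 (hu l h g a1 a2)]
    split_ifs <;> rfl
  have s3 := Finset.card_erase_add_one (Finset.mem_sdiff.2 ⟨h2, b2⟩)
  have s4 := Finset.card_sdiff_add_card_eq_card hB
  rw [Fintype.card_coe] at h1
  omega

end Vale.Agent.P022G.Pres.Cn
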