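import Vale.Agent.P022G.Pres.Uni
import Vale.Agent.P022E.GW.Unr
import Vale.Agent.P022E.GW.TauG
import Vale.Agent.P022E.Loc.Defs

/-!
# P022G, block Pres: the local lifts at the real place and at the tame primes
-/

set_option linter.all false

noncomputable section

namespace Vale.Agent.P022G.Pres.H96

open NumberField IsLocalRing
open Vale.Agent.P022 Vale.Agent.P022.H443
open Vale.Agent.P027M.S (Inert mx)
open Vale.Agent.P022D.Sel (M2)
open Vale.Agent.P022D.W (dec dec_gen inP_le_dec)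
open Vale.Agent.P022E.GW (Ov)
open Vale.Agent.P022E.GW.Kc (kq kq_add kq_opn)
open Vale.Agent.P022E.Loc (Tm)

theorem odd1 {R R' : Type} [Ring R] [Ring R'] (red : R →+* R') (hu : ∀ w, red w = 1 → IsUnit w)
    (h2 : (2 : R') = 0) {x : R} (hx : red x ^ 2 = 1) {m : ℕ} (hm : Odd m) (e : x ^ m = 1) :
    x = 1 := by
  have u : IsUnit (∑ i ∈ Finset.range m, (x ^ 2) ^ i) := by
    refine hu _ ?_
    rw [map_sum]
    simp only [map_pow, hx, one_pow, Finset.sum_const, Finset.card_range, nsmul_eq_mul, mul_one]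
    obtain ⟨k, rfl⟩ := hm
    push_cast
    rw [h2, zero_mul, zero_add]
  have e1 := geom_sum_mul (x ^ 2) m
  rw [← pow_mul, mul_comm 2, pow_mul, e, one_pow, sub_self, u.mul_right_eq_zero, sub_eq_zero] at e1
  obtain ⟨k, rfl⟩ := hm
  rwa [pow_succ, pow_mul, e1, one_pow, one_mul] at e

theorem pw_nat {M : Type} [Monoid M] {z : M} {N : ℕ} (h : z ^ N = 1) (k : ℕ) :
    z ^ (k : ZMod N).val = z ^ k := by
  rw [ZMod.val_natCast, ← pow_eq_pow_mod k h]

theorem pw_add {M : Type} [Monoid M] {z : M} {N : ℕ} [NeZero N] (h : z ^ N = 1) (a b : ZMod N) :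
    z ^ (a + b).val = z ^ a.val * z ^ b.val := by
  rw [ZMod.val_add, ← pow_eq_pow_mod _ h, pow_add]

theorem opn_of {D : Subgroup GQ} {M : Type} [Monoid M] (σ : D →* M) {U : Subgroup GQ}
    (hU : IsOpen (U : Set GQ)) (h : ∀ g : D, g.1 ∈ U → σ g = 1) : IsOpen {g : D | σ g = 1} := by
  have e : {g : D | σ g = 1} = (σ.toHomUnits.ker : Set D) := Set.ext fun g => by
    rw [SetLike.mem_coe, MonoidHom.mem_ker, Units.ext_iff]; rfl
  rw [e]
  refine Subgroup.isOpen_mono (H₁ := U.subgroupOf D) (fun g hg => ?_)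
    (hU.preimage continuous_subtype_val)
  rw [MonoidHom.mem_ker, Units.ext_iff]
  exact h g hg

variable {O F ι : Type} [CommRing O] [Field F] [IsLocalRing O] {S : Dt O F ι}
  {Lst : Ideal (PP O ι)}

theorem kil {B : Type} [CommRing B] {φ : PP O ι →+* B} (h : Lst ≤ RingHom.ker φ) {x y : PP O ι}
    (k : x - y ∈ Lst) : φ x = φ y := by
  have := RingHom.mem_ker.1 (h k)
  rwa [map_sub, sub_eq_zero] at this

/-- **the real place** -/
theorem loclR {D : Subgroup GQ} {c : GQ} (hD : (D : Set GQ) = {1, c}) (hc : c ≠ 1) {i : ι}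
    (hi : S.gam i = c) (hδ : S.δ c = -1) (ht : (S.Z i).trace ∈ Lst)
    (hd : (S.Z i).det - MvPowerSeries.C (S.δ c) ∈ Lst) : LOCL S Lst D := by
  classical
  intro B A _ _ _ φ q ρ _ _ _ hL _ _ hρ
  have mem : ∀ g : D, g.1 = 1 ∨ g.1 = c := fun g => by
    have : g.1 ∈ ({1, c} : Set GQ) := hD ▸ g.2
    simpa using this
  have cD : c ∈ D := by rw [← SetLike.mem_coe, hD]; simp
  have cc : c * c = 1 := (mem ⟨c * c, D.mul_mem cD cD⟩).resolve_right fun e =>
    hc (mul_eq_left.1 e)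
  set X := (S.Z i).map φ with hX
  have dX : X.det = φ (MvPowerSeries.C (S.δ c)) := by
    rw [← kil hL hd, RingHom.map_det]; rfl
  have tX : X 0 0 + X 1 1 = 0 := by
    have := RingHom.mem_ker.1 (hL ht)
    rwa [Matrix.trace_fin_two, map_add] at this
  have XX : X * X = 1 := by
    rw [hδ, map_neg, map_neg, map_one, map_one, Matrix.det_fin_two] at dX
    ext a b
    fin_cases a <;> fin_cases b <;> simp only [Matrix.mul_apply, Fin.sum_univ_two] <;> simp
    · linear_combination X 0 0 * tX - dX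
    · linear_combination X 0 1 * tX
    · linear_combination X 1 0 * tX
    · linear_combination X 1 1 * tX - dX
  let σ : D →* M2 B :=
    { toFun := fun g => if g.1 = 1 then 1 else X
      map_one' := if_pos rfl
      map_mul' := fun g h => by
        rw [Subgroup.coe_mul]
        rcases mem g with a | a <;> rcases mem h with b | b <;> simp [a, b, hc, cc, XX] }
  have s1 : ∀ g : D, g.1 = 1 → σ g = 1 := fun g a => if_pos a
  have s2 : ∀ g : D, g.1 = c → σ g = X := fun g a => if_neg (a ▸ hc)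
  refine ⟨σ, fun g => ?_, fun g => ?_, ?_⟩
  · rcases mem g with a | a
    · rw [s1 g a, a, map_one, Matrix.map_one _ (map_zero q) (map_one q)]
    · rw [s2 g a, a, ← hi, hρ.gen i, hX, Matrix.map_map]; rfl
  · rcases mem g with a | a
    · rw [s1 g a, a, map_one, map_one, map_one, Matrix.det_one]
    · rw [s2 g a, a, dX]
  · haveI : Finite D := by
      have : (D : Set GQ).Finite := by rw [hD]; exact Set.toFinite _
      exact this.to_subtype
    exact isOpen_discrete _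

theorem ex_pi (hS : S.Ok) {B : Type} [CommRing B] {φ : PP O ι →+* B} (hφ : Function.Surjective φ)
    (hk : ∀ p, φ p = 0 → p ∈ maximalIdeal (PP O ι)) :
    ∃ π : B →+* F, (∀ p, π (φ p) = S.π0 p) ∧ ∀ b, π b ≠ 0 → IsUnit b := by
  refine ⟨φ.liftOfSurjective hφ ⟨S.π0, fun p hp => hS.max.2 (hk p hp)⟩,
    fun p => φ.liftOfRightInverse_comp_apply _ _ _ p, fun b hb => ?_⟩
  obtain ⟨p, rfl⟩ := hφ b
  rw [φ.liftOfRightInverse_comp_apply] at hb
  refine IsUnit.map φ ?_
  by_contra hp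
  exact hb (hS.max.2 hp)

/-- **a tame prime**: the listed equations make the two generators commute, and the square of
the tame generator is trivial -/
theorem loclT [CharP F 2] (hS : S.Ok) {l : ℕ} {P : Ideal (𝓞 Qb)} (hP : Ov l P) {τ f : GQ}
    (tm : Tm l P τ f) (hu : ∀ g ∈ dec P, (mx S.rb g).trace = 0 ∧ (mx S.rb g).det = 1) {i j : ι}
    (hi : S.gam i = τ) (hj : S.gam j = f)
    (di : (S.Z i).det - MvPowerSeries.C (S.δ τ) ∈ Lst)
    (dj : (S.Z j).det - MvPowerSeries.C (S.δ f) ∈ Lst)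
    (hq : ∀ (B : Type) [CommRing B] (φ : PP O ι →+* B), Lst ≤ RingHom.ker φ →
      (S.Z i).map φ * (S.Z i).map φ = 1 ∧
        (S.Z i).map φ * (S.Z j).map φ = (S.Z j).map φ * (S.Z i).map φ) :
    LOCL S Lst (dec P) := by
  classical
  intro B A _ _ _ φ q ρ sφ sq ⟨k0, hk0⟩ hL _ hm hρ
  obtain ⟨XX, XY⟩ := hq B φ hL
  set X := (S.Z i).map φ with hX
  set Y := (S.Z j).map φ with hY
  have F2 : (2 : F) = 0 := CharTwo.two_eq_zero
  obtain ⟨πB, pB, uB⟩ := ex_pi hS sφ fun p hp => hm p (by rw [hp, map_zero])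
  obtain ⟨πA, pA, uA⟩ := ex_pi hS (φ := q.comp φ) (sq.comp sφ) hm
  let δB : GQ →* B := (φ.comp MvPowerSeries.C).toMonoidHom.comp S.δ
  have δe : ∀ g, δB g = φ (MvPowerSeries.C (S.δ g)) := fun g => rfl
  let κ : GQ →* Multiplicative (ZMod 2) :=
    { toFun := fun g => Multiplicative.ofAdd (kq (l : Qb) g)
      map_one' := by simp [kq]
      map_mul' := fun g h => by rw [kq_add (map_natCast g l) (map_natCast h l)]; rfl }
  have κa : ∀ g h, kq (l : Qb) (g * h) = kq (l : Qb) g + kq (l : Qb) h := fun g h =>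
    kq_add (map_natCast g l) (map_natCast h l)
  obtain ⟨W, hW, hW0⟩ := kq_opn (l : Qb)
  have oδ : IsOpen {g | δB g = 1} := by
    have e : {g | δB g = 1} = (δB.toHomUnits.ker : Set GQ) := Set.ext fun g => by
      rw [SetLike.mem_coe, MonoidHom.mem_ker, Units.ext_iff]; rfl
    rw [e]
    refine Subgroup.isOpen_of_mem_nhds _ (g := 1) (Filter.mem_of_superset
      ((hS.dop k0).mem_nhds (by simp)) fun g hg => ?_)
    rw [← e]
    have a : (MvPowerSeries.C (S.δ g - 1) : PP O ι) ∈ maximalIdeal (PP O ι) ^ k0 := by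
      have b : (maximalIdeal O).map (MvPowerSeries.C : O →+* PP O ι) ≤ maximalIdeal (PP O ι) :=
        Ideal.map_le_iff_le_comap.2 fun c hc => hS.max.1 (by simpa [Dt.π0] using (hS.ker c).2 hc)
      refine Ideal.pow_right_mono b k0 ?_
      rw [← Ideal.map_pow]
      exact Ideal.mem_map_of_mem _ hg
    have := RingHom.mem_ker.1 (hk0 a)
    rw [map_sub, map_sub, map_one, map_one, sub_eq_zero] at this
    exact this
  have oκ : IsOpen {g | κ g = 1} := (Vale.Agent.P022E.GW.Kc.kq_lc (l : Qb)).isOpen_fiber 0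
  let t : GQ →* M2 A × B × Multiplicative (ZMod 2) := ρ.prod (δB.prod κ)
  have ot : IsOpen {g | t g = 1} := by
    have : {g | t g = 1} = {g | ρ g = 1} ∩ ({g | δB g = 1} ∩ {g | κ g = 1}) := Set.ext fun g => by
      simp only [t, Set.mem_setOf_eq, Set.mem_inter_iff, MonoidHom.prod_apply, Prod.mk_eq_one]
    rw [this]
    exact hρ.opn.inter (oδ.inter oκ)
  obtain ⟨N, hN⟩ := tm.tame _ t ot
  have hp : ∀ p ∈ N, ρ p = 1 ∧ δB p = 1 ∧ kq (l : Qb) p = 0 := fun p hp => by
    obtain ⟨m, hm, e⟩ := hN.odd p hp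
    obtain ⟨a, b⟩ := hu p (hN.ID (hN.NI hp))
    refine ⟨odd1 (πA.mapMatrix : M2 A →+* M2 F) (fun w hw => ?_) ?_ ?_ hm (congrArg Prod.fst e),
      odd1 πB (fun w hw => uB w (by rw [hw]; exact one_ne_zero)) F2 ?_ hm
        (congrArg (fun z => z.2.1) e), ?_⟩
    · refine (Matrix.isUnit_iff_isUnit_det w).2 (uA _ ?_)
      rw [RingHom.map_det, hw, Matrix.det_one]
      exact one_ne_zero
    · have : (1 : M2 F) + 1 = 0 := by
        ext a b
        exact CharTwo.add_self_eq_zero ((1 : M2 F) a b)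
      rwa [one_add_one_eq_two] at this
    · rw [RingHom.mapMatrix_apply, hρ.red pA, pow_two]
      rw [Matrix.trace_fin_two] at a
      rw [Matrix.det_fin_two] at b
      generalize mx S.rb p = Z at a b
      ext x y
      fin_cases x <;> fin_cases y <;> simp only [Matrix.mul_apply, Fin.sum_univ_two] <;> simp
      · linear_combination Z 0 0 * a - b - F2
      · linear_combination Z 0 1 * a
      · linear_combination Z 1 0 * a
      · linear_combination Z 1 1 * a - b - F2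
    · rw [δe, pB, show S.π0 (MvPowerSeries.C (S.δ p)) = S.red (S.δ p) by simp [Dt.π0], hS.det, b,
        one_pow]
    · have e' : m • kq (l : Qb) p = 0 := congrArg (fun z => Multiplicative.toAdd z.2.2) e
      rw [nsmul_eq_mul, (ZMod.natCast_eq_one_iff_odd).2 hm, one_mul] at e'
      exact e'
  have kp : ∀ g (n : ℕ), kq (l : Qb) (g ^ n) = n • kq (l : Qb) g := fun g n =>
    congrArg Multiplicative.toAdd (map_pow κ g n)
  have kτ : kq (l : Qb) τ = 1 := by
    obtain ⟨τ', h'⟩ := Vale.Agent.P022E.GW.Tg.ex_gn' hP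
    obtain ⟨a, b⟩ := (Vale.Agent.P022E.GW.Tg.gn_iff hP).1 h'
    obtain ⟨n, p, pN, rfl⟩ := hN.cyc τ' a
    rw [κa, (hp p pN).2.2, add_zero, kp] at b
    rcases Vale.Agent.P022E.GW.Kc.z2 (kq (l : Qb) τ) with c | c
    · rw [c, smul_zero] at b; exact absurd b zero_ne_one
    · exact c
  have dX : X.det = δB τ := by rw [δe, ← kil hL di, RingHom.map_det]; rfl
  have dY : Y.det = δB f := by rw [δe, ← kil hL dj, RingHom.map_det]; rfl
  have X2 : X ^ 2 = 1 := by rw [pow_two, XX]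
  set Y' := Y * X ^ (kq (l : Qb) f).val with hY'
  have cm : Commute Y' X := Commute.mul_left (Eq.symm XY) ((Commute.refl X).pow_left _)
  obtain ⟨n, n0, hn⟩ : ∃ n, n ≠ 0 ∧ Y' ^ n = 1 := by
    have u : IsUnit Y' := by
      refine IsUnit.mul ((Matrix.isUnit_iff_isUnit_det Y).2 ?_)
        (IsUnit.pow _ (IsUnit.of_mul_eq_one _ XX))
      rw [dY]
      exact (Group.isUnit f).map δB
    obtain ⟨u, hu⟩ := u
    exact ⟨orderOf u, (orderOf_pos u).ne', by
      rw [← hu, ← Units.val_pow_eq_pow_val, pow_orderOf_eq_one, Units.val_one]⟩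
  haveI : NeZero n := ⟨n0⟩
  obtain ⟨d, V, hV, d1, d2, d3, d4⟩ :=
    Vale.Agent.P022E.GW.Unr.deg hP.1 hP.2.1 hP.2.2 tm.frob n0
  let σ : dec P →* M2 B :=
    { toFun := fun g => Y' ^ (d g).val * X ^ (kq (l : Qb) g).val
      map_one' := by
        rw [OneMemClass.coe_one, d3 1 (inP P).one_mem, hW0 1 W.one_mem]; simp
      map_mul' := fun g h => by
        rw [Subgroup.coe_mul, d1 _ g.2 _ h.2, κa, pw_add hn, pw_add X2]
        exact ((cm.pow_pow _ _).mul_mul_mul_comm _ _) }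
  have σe : ∀ g : dec P, σ g = Y' ^ (d g).val * X ^ (kq (l : Qb) g).val := fun g => rfl
  have σ0 : ∀ g : dec P, d g = 0 → kq (l : Qb) g = 0 → σ g = 1 := fun g a b => by
    rw [σe, a, b]; simp
  have στ : σ ⟨τ, hN.ID hN.tau⟩ = X := by
    rw [σe]
    dsimp only
    rw [d3 τ hN.tau, kτ, ZMod.val_zero, pow_zero, one_mul, ZMod.val_one, pow_one]
  have σf : σ ⟨f, hN.phi⟩ = Y := by
    rw [σe]
    dsimp only
    rw [d2, ← Nat.cast_one, pw_nat hn, pow_one, hY', mul_assoc, ← pow_add, ← two_mul, pow_mul, X2,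
      one_pow, mul_one]
  have ok : IsOpen (t.toHomUnits.ker : Set GQ) := by
    have : (t.toHomUnits.ker : Set GQ) = {g | t g = 1} := Set.ext fun g => by
      rw [SetLike.mem_coe, MonoidHom.mem_ker, Units.ext_iff]; rfl
    rw [this]; exact ot
  have key : ∀ g : dec P, ∃ a b : ℕ, σ g = Y ^ a * X ^ b ∧ ρ g = ρ f ^ a * ρ τ ^ b ∧
      δB g = δB f ^ a * δB τ ^ b := fun g => by
    obtain ⟨a, s, u, hs, hu, e⟩ := dec_gen hP.1 hP.2.1 hP.2.2 tm.frob g.2
      (t.toHomUnits.ker ⊓ V) (IsOpen.inter ok hV)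
    obtain ⟨b, p, pN, rfl⟩ := hN.cyc s hs
    have tu : t u = 1 := congrArg Units.val (MonoidHom.mem_ker.1 hu.1)
    have ud : u ∈ dec P := ((dec P).mul_mem_cancel_right ((dec P).pow_mem hN.phi a)).1
      (((dec P).mul_mem_cancel_right (inP_le_dec hs)).1 (e ▸ g.2))
    have pd := hN.ID (hN.NI pN)
    refine ⟨a, b, ?_, ?_, ?_⟩
    · have : g = ⟨u, ud⟩ * ⟨f, hN.phi⟩ ^ a * (⟨τ, hN.ID hN.tau⟩ ^ b * ⟨p, pd⟩) := Subtype.ext e
      rw [this, map_mul, map_mul, map_mul, map_pow, map_pow, σf, στ,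
        σ0 ⟨u, ud⟩ (d4 u hu.2 ud) (congrArg (fun z => Multiplicative.toAdd z.2.2) tu),
        σ0 ⟨p, pd⟩ (d3 p (hN.NI pN)) (hp p pN).2.2, one_mul, mul_one]
    · rw [e, map_mul, map_mul, map_mul, map_pow, map_pow, (hp p pN).1,
        show ρ u = 1 from congrArg Prod.fst tu, one_mul, mul_one]
    · rw [e, map_mul, map_mul, map_mul, map_pow, map_pow, (hp p pN).2.1,
        show δB u = 1 from congrArg (fun z => z.2.1) tu, one_mul, mul_one]
  refine ⟨σ, fun g => ?_, fun g => ?_, opn_of σ (U := V ⊓ W) (hV.inter hW)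
    fun g hg => σ0 g (d4 g hg.1 g.2) (hW0 g hg.2)⟩
  · obtain ⟨a, b, e1, e2, -⟩ := key g
    rw [e1, e2, ← hi, ← hj, hρ.gen, hρ.gen, ← RingHom.mapMatrix_apply, map_mul, map_pow, map_pow,
      RingHom.mapMatrix_apply, RingHom.mapMatrix_apply, hX, hY, Matrix.map_map, Matrix.map_map]
    rfl
  · obtain ⟨a, b, e1, -, e3⟩ := key g
    rw [← δe, e1, e3, Matrix.det_mul, Matrix.det_pow, Matrix.det_pow, dX, dY]

theorem kil0 {B : Type} [CommRing B] {φ : PP O ι →+* B} (h : Lst ≤ RingHom.ker φ) {x : PP O ι}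
    (k : x ∈ Lst) : φ x = 0 := RingHom.mem_ker.1 (h k)

/-- **the unramified type**: the tame generator acts trivially -/
theorem loclT0 [CharP F 2] (hS : S.Ok) {l : ℕ} {P : Ideal (𝓞 Qb)} (hP : Ov l P) {τ f : GQ}
    (tm : Tm l P τ f) (hu : ∀ g ∈ dec P, (mx S.rb g).trace = 0 ∧ (mx S.rb g).det = 1) {i j : ι}
    (hi : S.gam i = τ) (hj : S.gam j = f)
    (di : (S.Z i).det - MvPowerSeries.C (S.δ τ) ∈ Lst)
    (dj : (S.Z j).det - MvPowerSeries.C (S.δ f) ∈ Lst)
    (ha : S.Z i 0 0 - 1 ∈ Lst) (hb : S.Z i 0 1 ∈ Lst) (hc : S.Z i 1 0 ∈ Lst)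
    (hd : S.Z i 1 1 - 1 ∈ Lst ∨ MvPowerSeries.C (S.δ τ) - 1 ∈ Lst) : LOCL S Lst (dec P) := by
  refine loclT hS hP tm hu hi hj di dj fun B _ φ hL => ?_
  have a : φ (S.Z i 0 0) = 1 := by rw [kil hL ha, map_one]
  have b := kil0 hL hb
  have c := kil0 hL hc
  have d : φ (S.Z i 1 1) = 1 := by
    rcases hd with d | d
    · rw [kil hL d, map_one]
    · have e := kil hL di
      rwa [kil hL d, map_one, Matrix.det_fin_two, map_sub, map_mul, map_mul, a, b, zero_mul,
        one_mul, sub_zero] at e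
  have e : (S.Z i).map φ = 1 := by
    ext x y
    fin_cases x <;> fin_cases y
    exacts [a, b, c, d]
  rw [e, one_mul, one_mul, mul_one]
  exact ⟨rfl, rfl⟩

/-- **the unipotent type** in characteristic two -/
theorem loclT1 [CharP F 2] (hS : S.Ok) {l : ℕ} {P : Ideal (𝓞 Qb)} (hP : Ov l P) {τ f : GQ}
    (tm : Tm l P τ f) (hu : ∀ g ∈ dec P, (mx S.rb g).trace = 0 ∧ (mx S.rb g).det = 1) {i j : ι}
    (hi : S.gam i = τ) (hj : S.gam j = f)
    (di : (S.Z i).det - MvPowerSeries.C (S.δ τ) ∈ Lst)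
    (dj : (S.Z j).det - MvPowerSeries.C (S.δ f) ∈ Lst)
    (hπ : ∀ c ∈ maximalIdeal O, (MvPowerSeries.C c : PP O ι) ∈ Lst)
    (ti : (S.Z i).trace ∈ Lst) (tj : (S.Z j).trace ∈ Lst) (tij : (S.Z i * S.Z j).trace ∈ Lst) :
    LOCL S Lst (dec P) := by
  refine loclT hS hP tm hu hi hj di dj fun B _ φ hL => ?_
  have h2 : (2 : B) = 0 := by
    have := kil0 hL (hπ 2 ((hS.ker 2).1 (by rw [map_ofNat]; exact CharTwo.two_eq_zero)))
    rwa [map_ofNat, map_ofNat] at this
  have d : φ (MvPowerSeries.C (S.δ τ)) = 1 := by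
    have := kil0 hL (hπ (S.δ τ - 1) ((hS.ker _).1 (by
      rw [map_sub, map_one, hS.det, (hu τ (inP_le_dec tm.tau)).2, sub_self])))
    rwa [map_sub, map_sub, map_one, map_one, sub_eq_zero] at this
  have e := kil hL di
  have a := kil0 hL ti
  have b := kil0 hL tj
  have c := kil0 hL tij
  rw [d, Matrix.det_fin_two, map_sub, map_mul, map_mul] at e
  rw [Matrix.trace_fin_two, map_add] at a b
  simp only [Matrix.trace_fin_two, Matrix.mul_apply, Fin.sum_univ_two, map_add, map_mul] at c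
  constructor
  · ext x y
    fin_cases x <;> fin_cases y <;>
      simp only [Matrix.mul_apply, Fin.sum_univ_two, Matrix.map_apply] <;> simp
    · linear_combination φ (S.Z i 0 0) * a - e - h2
    · linear_combination φ (S.Z i 0 1) * a
    · linear_combination φ (S.Z i 1 0) * a
    · linear_combination φ (S.Z i 1 1) * a - e - h2
  · ext x y
    fin_cases x <;> fin_cases y <;>
      simp only [Matrix.mul_apply, Fin.sum_univ_two, Matrix.map_apply] <;> simp
    · linear_combination c - φ (S.Z j 1 1) * a - φ (S.Z i 0 0) * b +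
        (φ (S.Z i 0 0) * φ (S.Z j 1 1) - φ (S.Z i 1 0) * φ (S.Z j 0 1)) * h2
    · linear_combination φ (S.Z j 0 1) * a + φ (S.Z i 0 1) * b -
        (φ (S.Z i 0 1) * φ (S.Z j 0 0) + φ (S.Z i 1 1) * φ (S.Z j 0 1)) * h2
    · linear_combination φ (S.Z j 1 0) * a + φ (S.Z i 1 0) * b -
        (φ (S.Z i 1 0) * φ (S.Z j 1 1) + φ (S.Z i 0 0) * φ (S.Z j 1 0)) * h2
    · linear_combination c - φ (S.Z j 1 1) * a - φ (S.Z i 0 0) * b +
        (φ (S.Z i 0 0) * φ (S.Z j 1 1) - φ (S.Z i 0 1) * φ (S.Z j 1 0)) * h2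

end Vale.Agent.P022G.Pres.H96
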