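import Vale.Agent.P022E.GW.Defs
import Vale.Agent.P022D.L2b.Ps

/-!
# P022G, the presentation of the universal ring (statements)
-/

set_option linter.all false

noncomputable section

namespace Vale.Agent.P022G.Pres

open NumberField IsLocalRing
open Vale.Agent.P022
open Vale.Agent.P027M.S (Inert mx)
open Vale.Agent.P022D.Sel (M2)
open Vale.Agent.P022E.GW (Ov Op Ur H1)

/-- the names of the entries of the generators -/
abbrev Ix (ι : Type) : Type := ι × Fin 2 × Fin 2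

/-- the ring of the free group -/
abbrev PP (O ι : Type) : Type := MvPowerSeries (Ix ι) O

/-- the fixed data: `δ` is the determinant, `gam` the generators, `c0` lifts their images -/
structure Dt (O F ι : Type) [CommRing O] [Field F] where
  red : O →+* F
  rb : GQ →* GL (Fin 2) F
  δ : GQ →* O
  T : Finset ℕ
  gam : ι → GQ
  c0 : ι → M2 O

section

variable {O F ι : Type} [CommRing O] [Field F] (S : Dt O F ι)

/-- the tautological matrices -/
def Dt.Z (i : ι) : M2 (PP O ι) :=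
  Matrix.of fun a b => MvPowerSeries.C (S.c0 i a b) + MvPowerSeries.X (i, a, b)

/-- the residue map -/
def Dt.π0 : PP O ι →+* F := S.red.comp MvPowerSeries.constantCoeff

/-- the linear term -/
def Dt.lin (p : PP O ι) (s : Ix ι) : F := S.red (MvPowerSeries.coeff (Finsupp.single s 1) p)

/-- trivial on the inertia groups outside `T` -/
def Un {M : Type} [Monoid M] (T : Finset ℕ) (ρ : GQ →* M) : Prop :=
  ∀ l ∉ T, ∀ P : Ideal (𝓞 Qb), Ov l P → ∀ g, Inert P g → ρ g = 1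

/-- an admissible representation over `A` with classifying map `φ` -/
structure Adm {A : Type} [CommRing A] (φ : PP O ι →+* A) (ρ : GQ →* M2 A) : Prop where
  gen : ∀ i, ρ (S.gam i) = (S.Z i).map φ
  det : ∀ g, (ρ g).det = φ (MvPowerSeries.C (S.δ g))
  opn : IsOpen {g | ρ g = 1}
  unr : Un S.T ρ
  res : ∀ g i j, ∃ p, φ p = ρ g i j ∧ S.π0 p = mx S.rb g i j

variable [IsLocalRing O]

/-- the good ideals -/
def Go (a : Ideal (PP O ι)) : Prop := (∃ k : ℕ, maximalIdeal (PP O ι) ^ k ≤ a) ∧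
  ∃ ρ : GQ →* M2 (PP O ι ⧸ a), Adm S (Ideal.Quotient.mk a) ρ

/-- the ideal of the universal ring -/
def Jac : Ideal (PP O ι) := sInf {a | Go S a}

/-- the hypotheses on the data -/
structure Dt.Ok : Prop where
  surj : Function.Surjective S.red
  ker : ∀ c, S.red c = 0 ↔ c ∈ maximalIdeal O
  lift : ∀ i, (S.c0 i).map S.red = mx S.rb (S.gam i)
  opn : IsOpen {g | S.rb g = 1}
  unr : Un S.T S.rb
  det : ∀ g, S.red (S.δ g) = (mx S.rb g).det
  dop : ∀ k : ℕ, IsOpen {g | S.δ g - 1 ∈ maximalIdeal O ^ k}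
  dun : Un S.T S.δ
  gen : ∀ c ∈ H1 S.rb S.T ⊤, (∀ i, c (S.gam i) = 0) → c = 0

/-- **local lifts**: on `D` every representation lifts along a small extension in which the
listed equations hold -/
def LOCL (Lst : Ideal (PP O ι)) (D : Subgroup GQ) : Prop :=
  ∀ (B A : Type) [CommRing B] [CommRing A] [Finite B] (φ : PP O ι →+* B) (q : B →+* A)
    (ρ : GQ →* M2 A), Function.Surjective φ → Function.Surjective q →
    (∃ k : ℕ, maximalIdeal (PP O ι) ^ k ≤ RingHom.ker φ) → Lst ≤ RingHom.ker φ →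
    (∀ p ∈ maximalIdeal (PP O ι), ∀ x, q x = 0 → φ p * x = 0) →
    (∀ p, q (φ p) = 0 → p ∈ maximalIdeal (PP O ι)) → Adm S (q.comp φ) ρ →
    ∃ σ : D →* M2 B, (∀ g : D, (σ g).map q = ρ g) ∧
      (∀ g : D, (σ g).det = φ (MvPowerSeries.C (S.δ g))) ∧ IsOpen {g : D | σ g = 1}

end

section

variable {F : Type} [Field F] (rb : GQ →* GL (Fin 2) F) (T : Finset ℕ)

/-- two cocycles with values in the matrices of trace zero, unramified outside `T` -/
structure Zc (z : GQ → GQ → M2 F) : Prop where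
  tr : ∀ g h, (z g h).trace = 0
  coc : ∀ g h k, mx rb g * z h k * mx rb g⁻¹ + z g (h * k) = z (g * h) k + z g h
  one : ∀ g, z 1 g = 0 ∧ z g 1 = 0
  inf : ∃ U : Subgroup GQ, U.Normal ∧ IsOpen (U : Set GQ) ∧
    (∀ l ∉ T, ∀ P : Ideal (𝓞 Qb), Ov l P → ∀ g, Inert P g → g ∈ U) ∧ (∀ u ∈ U, rb u = 1) ∧
    ∀ u ∈ U, ∀ g h, z (g * u) h = z g h ∧ z g (h * u) = z g h

/-- `z` is the coboundary of `e` on `D` -/
def Bd (D : Subgroup GQ) (z : GQ → GQ → M2 F) (e : GQ → M2 F) : Prop :=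
  (∀ g ∈ D, (e g).trace = 0) ∧
    ∀ g ∈ D, ∀ h ∈ D, e (g * h) = e g + mx rb g * e h * mx rb g⁻¹ + z g h

/-- `z` is a coboundary on `D` -/
def Cb0 (D : Subgroup GQ) (z : GQ → GQ → M2 F) : Prop :=
  ∃ e : GQ → M2 F, Bd rb D z e ∧ IsLocallyConstant fun g : D => e g

/-- **the cohomological input**: `N` linear conditions and triviality on the groups of `DD` -/
def COH (DD : Set (Subgroup GQ)) (N : ℕ) : Prop :=
  ∃ Θ : (GQ → GQ → M2 F) →ₗ[F] (Fin N → F), ∀ z, Zc rb T z → (∀ D ∈ DD, Cb0 rb D z) → Θ z = 0 →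
    ∃ e : GQ → M2 F, Bd rb ⊤ z e ∧ Op e ∧ Ur T e

end

/-- **the presentation** -/
def PRES : Prop := ∀ (O F ι : Type) [CommRing O] [IsLocalRing O] [IsNoetherianRing O]
  [IsAdicComplete (maximalIdeal O) O] [Field F] [Finite F] [CharP F 2] [Fintype ι]
  (S : Dt O F ι), S.Ok → ∀ (Lst : Ideal (PP O ι)), Lst ≤ maximalIdeal (PP O ι) →
  ∀ (DD : Set (Subgroup GQ)) (N : ℕ), COH S.rb S.T DD N → (∀ D ∈ DD, LOCL S Lst D) →
  ∀ (sv : ℕ) (j : Fin sv → PP O ι), (∀ a, j a ∈ Jac S ∧ j a ∈ Lst) →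
  LinearIndependent F (fun a => S.lin (j a)) →
  ∀ (z1 : ℕ) (c : Fin z1 → GQ → M2 F), (∀ a, c a ∈ H1 S.rb S.T ⊤ ∧ ∀ g, (c a g).trace = 0) →
  LinearIndependent F c → ∀ 𝓗 : Set (PP O ι), Ideal.span 𝓗 = Jac S →
  ∃ (n : ℕ) (e : Fin n → PP O ι), n + sv + z1 ≤ N + 4 * Fintype.card ι ∧ (∀ i, e i ∈ 𝓗) ∧
    Jac S ≤ Ideal.span (Set.range e) ⊔ Lst

/-- **the universal property** -/
def UNI : Prop := ∀ (O F ι : Type) [CommRing O] [IsLocalRing O] [IsNoetherianRing O]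
  [IsAdicComplete (maximalIdeal O) O] [Field F] [Finite F] [CharP F 2] [Fintype ι]
  (S : Dt O F ι), S.Ok → (∀ k : ℕ, Go S (Jac S ⊔ maximalIdeal (PP O ι) ^ k)) ∧
  (∀ (A : Type) [CommRing A] (φ : PP O ι →+* A) (ρ : GQ →* M2 A),
    (∃ k : ℕ, maximalIdeal (PP O ι) ^ k ≤ RingHom.ker φ) → Adm S φ ρ → Jac S ≤ RingHom.ker φ) ∧
  ∀ (A : Type) [CommRing A] (φ : PP O ι →+* A) (ρ ρ' : GQ →* M2 A),
    (∃ k : ℕ, maximalIdeal (PP O ι) ^ k ≤ RingHom.ker φ) → Adm S φ ρ → Adm S φ ρ' → ρ = ρ'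

end Vale.Agent.P022G.Pres
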