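import Vale.Agent.P022G.Pres.Ob

/-!
# P022G, the obstruction cocycle: local triviality and global lifts
-/

set_option linter.all false

noncomputable section

namespace Vale.Agent.P022G.Pres

open NumberField IsLocalRing
open Vale.Agent.P022
open Vale.Agent.P027M.S (Inert mx)
open Vale.Agent.P022D.Sel (M2)
open Vale.Agent.P022E.GW (Ov Op Ur H1)
open Vale.Agent.P022D.R (opn_of_le ker_set)
open MvPowerSeries (C X)

variable {O F ι : Type} [CommRing O] [Field F] [IsLocalRing O] {S : Dt O F ι}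
  {a : Ideal (PP O ι)} {ρ : GQ →* M2 (PP O ι ⧸ a)} {s : GQ → M2 (PP O ι)}
  {U : Subgroup GQ} {lam : PP O ι → F} {k : ℕ}

theorem pow_K (hS : S.Ok) (hk : maximalIdeal (PP O ι) ^ k ≤ a) (f : Fn S.π0 a lam) :
    maximalIdeal (PP O ι) ^ (k + 1) ≤ f.K := by
  rw [pow_succ']
  exact (Ideal.mul_mono_right hk).trans (f.mulK fun x hx => hS.max.2 hx)

theorem Sec.rinv (h : Sec S a ρ s U) {u : GQ} (hu : u ∈ U) (g : GQ) :
    mx S.rb (g * u)⁻¹ = mx S.rb g⁻¹ := by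
  rw [mul_inv_rev, mxm, show mx S.rb u⁻¹ = 1 from congrArg Units.val (h.rb _ (U.inv_mem hu)),
    one_mul]

/-- local triviality -/
theorem Sec.loc [IsNoetherianRing O] [Finite F] [Fintype ι] (h : Sec S a ρ s U) (hS : S.Ok)
    (ha : a ≤ maximalIdeal (PP O ι)) (hk : maximalIdeal (PP O ι) ^ k ≤ a)
    (hρ : Adm S (Ideal.Quotient.mk a) ρ) (f : Fn S.π0 a lam) {Lst : Ideal (PP O ι)}
    (hL : Lst ≤ f.K) {D : Subgroup GQ} (hD : LOCL S Lst D) : Cb0 S.rb D (zz S s lam) := by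
  classical
  have hK := pow_K hS hk f
  have := fin_pow hS (k + 1)
  have : Finite (PP O ι ⧸ f.K) :=
    Finite.of_surjective _ (Ideal.Quotient.factor_surjective hK)
  obtain ⟨σ, s1, s2, s3⟩ := hD (PP O ι ⧸ f.K) (PP O ι ⧸ a) (Ideal.Quotient.mk _)
    (Ideal.Quotient.factor f.K_le) ρ Ideal.Quotient.mk_surjective
    (Ideal.Quotient.factor_surjective _) ⟨k + 1, by rwa [Ideal.mk_ker]⟩ (by rwa [Ideal.mk_ker])
    (fun p hp x hx => by
      obtain ⟨y, rfl⟩ := Ideal.Quotient.mk_surjective x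
      exact Ideal.Quotient.eq_zero_iff_mem.2 (f.mulK (fun x hx => hS.max.2 hx)
        (Ideal.mul_mem_mul hp (Ideal.Quotient.eq_zero_iff_mem.1 hx))))
    (fun p hp => ha (Ideal.Quotient.eq_zero_iff_mem.1 hp)) hρ
  choose out hout using Ideal.Quotient.mk_surjective (I := f.K)
  have l1 : ∀ g : D, ((σ g).map out).map (Ideal.Quotient.mk f.K) = σ g := fun g =>
    Matrix.ext fun i j => hout _
  have hw : ∀ g : D, ∀ i j, ((σ g).map out - s g) i j ∈ a := fun g => mem_iff.2 (by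
    rw [h.lift, ← s1]
    exact Matrix.ext fun i j => congrArg (Ideal.Quotient.factor f.K_le) (hout (σ g i j)))
  refine ⟨fun g => if m : g ∈ D then ((σ ⟨g, m⟩).map out - s g).map lam * mx S.rb g⁻¹ else 0,
    ⟨fun g hg => ?_, fun g hg g' hg' => ?_⟩, ?_⟩
  · beta_reduce
    rw [dif_pos hg]
    refine (h.tr hS ha f g (hw ⟨g, hg⟩)).1 (Ideal.Quotient.eq.1 ?_)
    rw [add_sub_cancel, RingHom.map_det, RingHom.mapMatrix_apply, l1, s2]
  · beta_reduce
    rw [dif_pos hg, dif_pos hg', dif_pos (D.mul_mem hg hg')]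
    refine (h.mul hS ha f g g' (hw ⟨g, hg⟩) (hw ⟨g', hg'⟩) (hw ⟨_, D.mul_mem hg hg'⟩)).1
      (mem_iff.2 ?_)
    rw [add_sub_cancel, add_sub_cancel, add_sub_cancel, Matrix.map_mul, l1, l1, l1, ← map_mul]
    rfl
  · refine lc _ (s3.inter (h.opn.preimage continuous_subtype_val)) ⟨map_one σ, U.one_mem⟩
      fun u hu g => ?_
    beta_reduce
    rw [dif_pos (g * u).2, dif_pos g.2]
    show ((σ (g * u)).map out - s (g * u)).map lam * mx S.rb ((g : GQ) * u)⁻¹ = _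
    rw [map_mul, show σ u = 1 from hu.1, mul_one, h.inv _ hu.2, h.rinv hu.2]

/-- the lift defined by a trivialisation of the obstruction -/
theorem Sec.up (h : Sec S a ρ s U) (hS : S.Ok) (ha : a ≤ maximalIdeal (PP O ι))
    (f : Fn S.π0 a lam) {x0 : PP O ι} (hx : x0 ∈ a) (h1 : lam x0 = 1) {e : GQ → M2 F}
    (hb : Bd S.rb ⊤ (zz S s lam) e) (ho : Op e) (hu : Ur S.T e) :
    ∃ (w : GQ → M2 (PP O ι)) (ρ' : GQ →* M2 (PP O ι ⧸ f.K)), (∀ g i j, w g i j ∈ a) ∧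
      (∀ g, ρ' g = (s g + w g).map (Ideal.Quotient.mk _)) ∧
      (∀ g, (ρ' g).det = Ideal.Quotient.mk _ (C (S.δ g))) ∧ IsOpen {g | ρ' g = 1} ∧ Un S.T ρ' := by
  choose r hr using hS.sur
  let w : GQ → M2 (PP O ι) := fun g => (e g * mx S.rb g).map fun c => r c * x0
  have hw : ∀ g i j, w g i j ∈ a := fun g i j => a.mul_mem_left _ hx
  have e0 : ∀ g, (w g).map lam = e g * mx S.rb g := fun g => Matrix.ext fun i j => by
    show lam (r _ * x0) = _
    rw [f.mul _ _ hx, hr, h1, mul_one]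
  have e1 : ∀ g, (w g).map lam * mx S.rb g⁻¹ = e g := fun g => by
    rw [e0, mul_assoc, mxi, mul_one]
  have one : ∀ g ∈ U, e g = 0 → (s g + w g).map (Ideal.Quotient.mk f.K) = 1 := fun g m z => by
    rw [← Matrix.map_one (Ideal.Quotient.mk f.K) (map_zero _) (map_one _), ← mem_iff,
      ← one_mul g, h.inv g m, h.one, one_mul, add_sub_cancel_left]
    exact f.memK (hw g) (by rw [e0, z, zero_mul])
  have z1 : e 1 = 0 := by
    have := hb.2 1 trivial 1 trivial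
    rw [mul_one, inv_one, mx1, one_mul, mul_one, ((h.zc hS ha f).one 1).1, add_zero] at this
    exact left_eq_add.1 this
  let ρ' : GQ →* M2 (PP O ι ⧸ f.K) := ⟨⟨fun g => (s g + w g).map (Ideal.Quotient.mk _),
    one 1 U.one_mem z1⟩, fun g k => by
      rw [← Matrix.map_mul, eq_comm, ← mem_iff, h.mul hS ha f g k (hw g) (hw k) (hw _), e1, e1, e1]
      exact hb.2 g trivial k trivial⟩
  refine ⟨w, ρ', hw, fun _ => rfl, fun g => ?_, ?_,
    fun l hl P hP g hg => one g (h.unr l hl P hP g hg) (hu l hl P hP g hg)⟩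
  · refine ((Ideal.Quotient.mk f.K).map_det _).symm.trans (Ideal.Quotient.eq.2 ?_)
    rw [h.tr hS ha f g (hw g), e1]
    exact hb.1 g trivial
  · obtain ⟨V, v1, v2⟩ := ho
    rw [← ker_set]
    exact Subgroup.isOpen_mono (H₁ := U ⊓ V) (fun g hg => Units.ext (one g hg.1 (v2 g hg.2)))
      (h.opn.inter v1)

/-- **the vanishing of the obstruction** -/
theorem Sec.glob [Fintype ι] (h : Sec S a ρ s U) (hS : S.Ok) (ha : a ≤ maximalIdeal (PP O ι))
    (hk : maximalIdeal (PP O ι) ^ k ≤ a) (hρ : Adm S (Ideal.Quotient.mk a) ρ)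
    (f : Fn S.π0 a lam) {e : GQ → M2 F} (hb : Bd S.rb ⊤ (zz S s lam) e) (ho : Op e)
    (hu : Ur S.T e) : ∃ D : Ix ι → F, ∀ j ∈ Jac S, lam j = ∑ t, S.lin j t * D t := by
  have hJ : Jac S ≤ a := sInf_le ⟨⟨k, hk⟩, ρ, hρ⟩
  have nrm : ∀ x ∈ a, lam x ≠ 0 → ∀ c, ∃ p, lam (p * x) = c := fun x hx n c =>
    (hS.sur (c * (lam x)⁻¹)).imp fun p hp => by rw [f.mul _ _ hx, hp, inv_mul_cancel_right₀ n]
  by_cases h0 : ∀ x ∈ a, lam x = 0
  · exact ⟨0, fun j hj => by simp [h0 j (hJ hj)]⟩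
  push Not at h0
  obtain ⟨x, hx, n⟩ := h0
  obtain ⟨p0, h1⟩ := nrm x hx n 1
  obtain ⟨w, ρ', hw, r1, r2, r3, r4⟩ := h.up hS ha f (a.mul_mem_left p0 hx) h1 hb ho hu
  have hK := pow_K hS hk f
  have mK := f.mulK (J := maximalIdeal (PP O ι)) fun x hx => hS.max.2 hx
  let y : Ix ι → PP O ι := fun t => (s (S.gam t.1) + w (S.gam t.1) - S.Z t.1) t.2.1 t.2.2
  have hy : ∀ t, y t ∈ a := fun t => by
    have : ∀ i j, (s (S.gam t.1) - S.Z t.1) i j ∈ a := mem_iff.2 (by rw [h.lift, hρ.gen])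
    show (s (S.gam t.1) + w (S.gam t.1) - S.Z t.1) t.2.1 t.2.2 ∈ a
    rw [add_sub_right_comm]
    exact memadd this (hw _) _ _
  have hX : ∀ t, (X t : PP O ι) ∈ maximalIdeal (PP O ι) := fun t =>
    (P022D.L2b.mem_max_iff _).2 (by simp)
  set μ := Ideal.Quotient.mk f.K with hμ
  have z : ∀ {p}, μ p = 0 ↔ p ∈ f.K := Ideal.Quotient.eq_zero_iff_mem
  have hn : (maximalIdeal (PP O ι)).map μ ^ (k + 1) = ⊥ := by
    rw [← Ideal.map_pow, Ideal.map_eq_bot_iff_le_ker, Ideal.mk_ker]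
    exact hK
  obtain ⟨φ, c1, c2⟩ := ev (μ.comp C) (fun t => μ (X t + y t)) fun t => ⟨k + 1, by
    rw [← map_pow, z]
    exact hK (Ideal.pow_mem_pow (Ideal.add_mem _ (hX t) (ha (hy t))) _)⟩
  have c3 : ∀ t, φ (X t) - μ (X t) = μ (y t) := fun t => by rw [c2, map_add, add_sub_cancel_left]
  have mem : ∀ {x}, x ∈ a.map μ ↔ ∃ p ∈ a, μ p = x :=
    Ideal.mem_map_iff_of_surjective μ Ideal.Quotient.mk_surjective
  have d0 := der0 μ φ (I := a.map μ) hn (fun t => Ideal.mem_map_of_mem _ (hX t)) c1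
    fun t => c3 t ▸ Ideal.mem_map_of_mem _ (hy t)
  have km : ∀ p ∈ maximalIdeal (PP O ι), ∀ x ∈ a.map μ, μ p * x = 0 := fun p hp x hx => by
    obtain ⟨q, hq, rfl⟩ := mem.1 hx
    exact z.2 (mK (Ideal.mul_mem_mul hp hq))
  have II : ∀ x ∈ a.map μ, ∀ y ∈ a.map μ, x * y = 0 := fun x hx y hy => by
    obtain ⟨q, hq, rfl⟩ := mem.1 hx
    exact km q (ha hq) y hy
  have d1 := der μ φ c1 d0 II fun p hp => km p ((P022D.L2b.mem_max_iff _).2 (by simp [hp]))
  have fin : ∀ j ∈ Jac S, φ j = 0 := by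
    by_contra hc
    push Not at hc
    obtain ⟨j, hj, nj⟩ := hc
    obtain ⟨q, hq, eq⟩ := mem.1 (show φ j ∈ a.map μ by
      simpa using Ideal.add_mem _ (d0 j) (Ideal.mem_map_of_mem μ (hJ hj)))
    have nq : lam q ≠ 0 := fun m => nj (eq ▸ z.2 ⟨hq, m⟩)
    have sur : ∀ p, ∃ p', φ p' = μ p ∧ p' - p ∈ a := fun p => by
      obtain ⟨q', hq', eq'⟩ := mem.1 (d0 p)
      obtain ⟨b, hb⟩ := nrm q hq nq (lam q')
      have e1 : μ (b * q) = μ q' := Ideal.Quotient.eq.2 ⟨a.sub_mem (a.mul_mem_left _ hq) hq',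
        by rw [f.sub (a.mul_mem_left _ hq) hq', hb, sub_self]⟩
      have e2 := II _ (d0 b) _ (Ideal.mem_map_of_mem μ hq)
      refine ⟨p - b * j, ?_, by simpa using a.mul_mem_left b (hJ hj)⟩
      rw [map_mul] at e1
      rw [map_sub, map_mul, ← eq]
      linear_combination -eq' - e1 - e2
    refine nj (univ (φ := φ) (ρ := ρ') ⟨k + 1, ?_⟩ ⟨fun i => ?_, fun g => (r2 g).trans (c1 _).symm,
      r3, r4, fun g i j => ?_⟩ hj)
    · rw [← Ideal.map_eq_bot_iff_le_ker, Ideal.map_pow, eq_bot_iff, ← hn]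
      refine Ideal.pow_right_mono (Ideal.map_le_iff_le_comap.2 fun p hp => ?_) _
      simpa using Ideal.add_mem _ (Ideal.map_mono ha (d0 p)) (Ideal.mem_map_of_mem μ hp)
    · rw [r1]
      ext b c
      show μ _ = φ (C _ + X _)
      rw [map_add φ, c1, c2, RingHom.comp_apply, ← map_add]
      congr 1
      simp only [y, Dt.Z, Matrix.sub_apply, Matrix.of_apply]
      ring
    · obtain ⟨p', q1, q2⟩ := sur ((s g + w g) i j)
      refine ⟨p', by rw [q1, r1]; rfl, ?_⟩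
      have := hS.max.2 (ha q2)
      rw [map_sub, sub_eq_zero] at this
      rw [this, Matrix.add_apply, map_add, hS.max.2 (ha (hw g i j)), add_zero, ← h.red]
      rfl
  refine ⟨fun t => -lam (y t), fun j hj => ?_⟩
  have e1 := d1 j
  simp only [fin j hj, c3, ← map_mul, ← map_sum] at e1
  have m := fun t => a.mul_mem_left (C (MvPowerSeries.coeff (Finsupp.single t 1) j)) (hy t)
  have e2 : j + ∑ t, C (MvPowerSeries.coeff (Finsupp.single t 1) j) * y t ∈ f.K :=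
    z.1 (by rw [map_add, ← e1]; ring)
  have e3 := e2.2
  rw [f.add _ (hJ hj) _ (a.sum_mem fun t _ => m t), f.sum _ _ m, add_eq_zero_iff_eq_neg,
    ← Finset.sum_neg_distrib] at e3
  rw [e3]
  refine Finset.sum_congr rfl fun t _ => ?_
  rw [f.mul _ _ (hy t), mul_neg]
  simp [Dt.π0, Dt.lin]

end Vale.Agent.P022G.Pres
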