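import Vale.Agent.P022G.Pres.Uni
import Vale.Agent.P022E.Loc.Defs
import Vale.Agent.P022E.GW.Unr
import Vale.Agent.P022E.GW.TauG
import Vale.Agent.P022E.GW.Kc

/-!
# P022G, exact local lifts at the tame primes
-/

set_option linter.all false

noncomputable section

namespace Vale.Agent.P022G.Pres.T62

open NumberField IsLocalRing MvPowerSeries
open Vale.Agent.P022 Vale.Agent.P022.H443
open Vale.Agent.P027M.S (Inert mx)
open Vale.Agent.P022D.Sel (M2)
open Vale.Agent.P022D.W (dec phi_mem inP_le_dec)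
open Vale.Agent.P022E.Loc (Tm)
open Vale.Agent.P022E.GW
open Vale.Agent.P022E.GW.Kc (kq)

theorem pw {M : Type} [Monoid M] {x : M} {n : ℕ} [NeZero n] (hx : x ^ n = 1) (a b : ZMod n) :
    x ^ (a + b).val = x ^ a.val * x ^ b.val := by
  rw [ZMod.val_add, ← pow_eq_pow_mod _ hx, pow_add]

theorem pw1 {M : Type} [Monoid M] {x : M} {n : ℕ} (hx : x ^ n = 1) : x ^ (1 : ZMod n).val = x := by
  rw [ZMod.val_one_eq_one_mod, ← pow_eq_pow_mod _ hx, pow_one]

theorem odd2 {M : Type} [Monoid M] {x : M} {m k : ℕ} (hm : Odd m) (h1 : x ^ m = 1)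
    (h2 : x ^ 2 ^ k = 1) : x = 1 := by
  have := pow_gcd_eq_one.2 ⟨h1, h2⟩
  rwa [(Nat.Coprime.pow_right k (Nat.coprime_two_right.2 hm)).gcd_eq_one, pow_one] at this

theorem pow2 {A : Type} [CommRing A] (J : Ideal A) (h2 : (2 : A) ∈ J) {y : M2 A}
    (hy : ∀ a b, (y - 1 : M2 A) a b ∈ J) (i : ℕ) :
    ∀ a b, (y ^ 2 ^ i - 1 : M2 A) a b ∈ J ^ (i + 1) := by
  induction i with
  | zero => simpa using hy
  | succ i ih =>
    intro a b
    have e : y ^ 2 ^ (i + 1) - 1 = (y ^ 2 ^ i - 1) * (y ^ 2 ^ i - 1) +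
        (2 : A) • (y ^ 2 ^ i - 1) := by
      rw [pow_succ 2, pow_mul, two_smul]; noncomm_ring
    rw [e, Matrix.add_apply, Matrix.mul_apply, Matrix.smul_apply, smul_eq_mul, pow_succ' J]
    exact add_mem (sum_mem fun c _ => Ideal.mul_mem_mul
      (Ideal.pow_le_self (Nat.succ_ne_zero i) (ih a c)) (ih c b)) (Ideal.mul_mem_mul h2 (ih a b))

theorem sq1 {A : Type} [CommRing A] (h2 : (2 : A) = 0) {y : M2 A} (ht : y.trace = 0)
    (hd : y.det = 1) : y ^ 2 = 1 := by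
  rw [Matrix.trace_fin_two] at ht
  rw [Matrix.det_fin_two] at hd
  ext a b
  fin_cases a <;> fin_cases b <;> simp [pow_two, Matrix.mul_apply, Fin.sum_univ_two]
  · linear_combination y 0 0 * ht - hd - h2
  · linear_combination y 0 1 * ht
  · linear_combination y 1 0 * ht
  · linear_combination y 1 1 * ht - hd - h2

variable {l : ℕ} {P : Ideal (𝓞 Qb)} {τ φ : GQ}

theorem gen1 (tm : Tm l P τ φ) (U : Subgroup GQ) [U.Normal] (hU : IsOpen (U : Set GQ)) {g : GQ}
    (hg : g ∈ dec P) : ∃ (k j m : ℕ) (p u : GQ), p ∈ inP P ∧ u ∈ U ∧ Odd m ∧ p ^ m ∈ U ∧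
      g = φ ^ k * τ ^ j * p * u := by
  obtain ⟨N, h⟩ := tm.tame _ (QuotientGroup.mk' U) (by
    convert hU using 1
    ext x
    exact QuotientGroup.eq_one_iff x)
  obtain ⟨k, s, hs, e⟩ := h.gen g hg
  obtain ⟨j, p, hp, rfl⟩ := h.cyc s hs
  obtain ⟨m, hm, e1⟩ := h.odd p hp
  refine ⟨k, j, m, p, (φ ^ k * τ ^ j * p)⁻¹ * g, h.NI hp, ?_, hm, ?_, by group⟩
  · rw [mul_assoc]
    exact QuotientGroup.eq.1 e.symm
  · rw [← map_pow] at e1
    exact (QuotientGroup.eq_one_iff _).1 e1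

theorem kq_tau (hP : Ov l P) (tm : Tm l P τ φ) : kq (l : Qb) τ = 1 := by
  let f : GQ →* Multiplicative (ZMod 2) :=
    MonoidHom.mk' (fun g => Multiplicative.ofAdd (kq (l : Qb) g)) fun a b =>
      congrArg Multiplicative.ofAdd (Kc.kq_add (map_natCast a l) (map_natCast b l))
  obtain ⟨N, h⟩ := tm.tame _ f ((Kc.kq_lc (l : Qb)).isOpen_fiber 0)
  obtain ⟨t, ht⟩ := Tg.ex_gn' hP
  obtain ⟨j, p, hp, e⟩ := h.cyc t ht.1
  obtain ⟨m, hm, e1⟩ := h.odd p hp
  have p1 : f p = 1 := odd2 (k := 1) hm e1 (by generalize f p = x; revert x; decide)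
  refine (Kc.z2 _).resolve_left fun k => ?_
  have t1 : f t = 1 := by
    rw [e, map_mul, map_pow, p1, show f τ = 1 from congrArg Multiplicative.ofAdd k]; simp
  have := (Kc.kq_one (x := (l : Qb)) (by exact_mod_cast hP.1.ne_zero) (Kc.rt_sq _)
    (map_natCast t l)).2 (ht.2 _ (Kc.rt_sq _))
  rw [show kq (l : Qb) t = 0 from t1] at this
  exact zero_ne_one this

variable {O F ι : Type} [CommRing O] [IsLocalRing O] [Field F] [CharP F 2] {S : Dt O F ι}
  {i j : ι} {Lst : Ideal (PP O ι)}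

theorem two_mem (hS : S.Ok) : (2 : O) ∈ maximalIdeal O :=
  (hS.ker _).1 (by rw [map_ofNat]; exact CharTwo.two_eq_zero)

theorem c_mem {c : O} (h : c ∈ maximalIdeal O) : (C c : PP O ι) ∈ maximalIdeal (PP O ι) :=
  (P022D.L2b.mem_max_iff _).2 (by simpa using h)

/-- a homomorphism with the right values on `τ` and `φ` is a lift -/
theorem fin (hS : S.Ok) (hP : Ov l P) (tm : Tm l P τ φ) (hi : S.gam i = τ) (hj : S.gam j = φ)
    (hdet : ∀ g, (mx S.rb g).det = 1) (huni : ∀ g ∈ dec P, (mx S.rb g).trace = 0)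
    {B A : Type} [CommRing B] [CommRing A] {ψ : PP O ι →+* B} {q : B →+* A} {ρ : GQ →* M2 A}
    (hk : ∃ k : ℕ, maximalIdeal (PP O ι) ^ k ≤ RingHom.ker ψ) (hA : Adm S (q.comp ψ) ρ)
    (di : ψ ((S.Z i).det - C (S.δ τ)) = 0) (dj : ψ ((S.Z j).det - C (S.δ φ)) = 0)
    (hδ : ∀ s ∈ inP P, ψ (C (S.δ s) - 1) = 0) (σ : dec P →* M2 B)
    (s1 : ∀ h, σ ⟨τ, h⟩ = (S.Z i).map ψ) (s2 : ∀ h, σ ⟨φ, h⟩ = (S.Z j).map ψ)
    (s3 : ∃ V : Subgroup GQ, IsOpen (V : Set GQ) ∧ ∀ g : dec P, g.1 ∈ V → σ g = 1)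
    (s4 : ∀ g : dec P, g.1 ∈ inP P → σ g ^ 2 = 1) :
    (∀ g : dec P, (σ g).map q = ρ g) ∧ (∀ g : dec P, (σ g).det = ψ (C (S.δ g))) ∧
      IsOpen {g : dec P | σ g = 1} := by
  have := galQb
  obtain ⟨k, hk⟩ := hk
  obtain ⟨V, hV, s3⟩ := s3
  obtain ⟨U, hU⟩ := ProfiniteGrp.exist_openNormalSubgroup_sub_open_nhds_of_one
    ((hV.inter hA.opn).inter (hS.dop k)) ⟨⟨V.one_mem, map_one ρ⟩, by simp⟩
  haveI := U.isNormal'
  have mτ := inP_le_dec tm.tau
  have mφ := phi_mem hP.1 hP.2.1 tm.frob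
  let d : GQ →* B := (ψ.comp C).toMonoidHom.comp S.δ
  have key : ∀ g : dec P, ∃ a b : ℕ, σ g = (S.Z j).map ψ ^ a * (S.Z i).map ψ ^ b ∧
      ρ g = ρ φ ^ a * ρ τ ^ b ∧ d g = d φ ^ a * d τ ^ b := fun g => by
    obtain ⟨a, b, m, p, u, hp, hu, hm, pm, e⟩ := gen1 tm U.toSubgroup U.isOpen' g.2
    have mp := inP_le_dec hp
    have mu : u ∈ dec P := by
      have := (dec P).mul_mem ((dec P).inv_mem ((dec P).mul_mem ((dec P).mul_mem
        ((dec P).pow_mem mφ a) ((dec P).pow_mem mτ b)) mp)) g.2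
      rwa [e, inv_mul_cancel_left] at this
    refine ⟨a, b, ?_, ?_, ?_⟩
    · have e' : g = ⟨φ, mφ⟩ ^ a * ⟨τ, mτ⟩ ^ b * ⟨p, mp⟩ * ⟨u, mu⟩ := Subtype.ext e
      have p1 : σ ⟨p, mp⟩ = 1 := odd2 (k := 1) hm (by
        rw [← map_pow]; exact s3 _ (hU pm).1.1) (s4 _ hp)
      rw [e', map_mul, map_mul, map_mul, map_pow, map_pow, s1, s2, p1, s3 _ (hU hu).1.1, mul_one,
        mul_one]
    · have p1 : ρ p = 1 := by
        let J := (maximalIdeal (PP O ι)).map (q.comp ψ)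
        have j0 : J ^ (k + 1) = ⊥ := by
          rw [← Ideal.map_pow, Ideal.map_eq_bot_iff_le_ker]
          intro x hx
          have : ψ x = 0 := hk (Ideal.pow_le_pow_right (Nat.le_succ k) hx)
          rw [RingHom.mem_ker, RingHom.comp_apply, this, map_zero]
        have j1 := pow2 J (by
          have := Ideal.mem_map_of_mem (q.comp ψ) (c_mem (ι := ι) (two_mem hS))
          rwa [map_ofNat, map_ofNat] at this) (y := ρ (p ^ 2)) (fun a b => by
            obtain ⟨x, h1, h2⟩ := hA.res (p ^ 2) a b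
            have e2 : mx S.rb (p ^ 2) = 1 := by
              rw [pow_two, mxm, ← pow_two]
              exact sq1 CharTwo.two_eq_zero (huni p mp) (hdet p)
            have m : x - (1 : M2 (PP O ι)) a b ∈ maximalIdeal (PP O ι) := hS.max.1 (by
              rw [map_sub, h2, e2, Matrix.one_apply, Matrix.one_apply]
              split_ifs <;> simp)
            have := Ideal.mem_map_of_mem (q.comp ψ) m
            rw [map_sub, h1] at this
            convert this using 1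
            rw [Matrix.sub_apply, Matrix.one_apply, Matrix.one_apply]
            split_ifs <;> simp) k
        refine odd2 (k := k + 1) hm (by rw [← map_pow]; exact (hU pm).1.2) ?_
        rw [pow_succ', pow_mul, ← map_pow, ← sub_eq_zero]
        ext a b
        have := j1 a b
        rwa [j0, Ideal.mem_bot] at this
      rw [e, map_mul, map_mul, map_mul, map_pow, map_pow, p1, show ρ u = 1 from (hU hu).1.2,
        mul_one, mul_one]
    · have p1 : d p = 1 := by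
        have := hδ p hp
        rwa [map_sub, map_one, sub_eq_zero] at this
      have u1 : d u = 1 := by
        have m : (C (S.δ u - 1) : PP O ι) ∈ maximalIdeal (PP O ι) ^ k := by
          have := Ideal.mem_map_of_mem (C : O →+* PP O ι) (hU hu).2
          rw [Ideal.map_pow] at this
          have le : (maximalIdeal O).map (C : O →+* PP O ι) ≤ maximalIdeal (PP O ι) :=
            Ideal.map_le_iff_le_comap.2 fun c hc => c_mem (ι := ι) hc
          exact Ideal.pow_right_mono le k this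
        have : ψ (C (S.δ u - 1)) = 0 := hk m
        rwa [map_sub, map_sub, map_one, map_one, sub_eq_zero] at this
      rw [e, map_mul, map_mul, map_mul, map_pow, map_pow, p1, u1, mul_one, mul_one]
  refine ⟨fun g => ?_, fun g => ?_, ?_⟩
  · obtain ⟨a, b, e1, e2, -⟩ := key g
    rw [e1, e2, ← hi, ← hj, hA.gen, hA.gen, ← RingHom.mapMatrix_apply, map_mul, map_pow, map_pow]
    rfl
  · obtain ⟨a, b, e1, -, e2⟩ := key g
    rw [map_sub, sub_eq_zero, RingHom.map_det, RingHom.mapMatrix_apply] at di dj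
    rw [e1, Matrix.det_mul, Matrix.det_pow, Matrix.det_pow, di, dj]
    exact e2.symm
  · refine isOpen_iff_forall_mem_open.2 fun g hg => ⟨{x | (g⁻¹ * x).1 ∈ V}, fun x hx => ?_,
      hV.preimage (continuous_subtype_val.comp (continuous_const.mul continuous_id)), by simp⟩
    have : σ g = 1 := hg
    show σ x = 1
    rw [← mul_inv_cancel_left g x, map_mul, this, s3 _ hx, one_mul]

/-- **the unramified type** -/
theorem loclU (hS : S.Ok) (hP : Ov l P) (tm : Tm l P τ φ) (hi : S.gam i = τ) (hj : S.gam j = φ)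
    (hdet : ∀ g, (mx S.rb g).det = 1) (huni : ∀ g ∈ dec P, (mx S.rb g).trace = 0)
    (di : (S.Z i).det - C (S.δ τ) ∈ Lst) (dj : (S.Z j).det - C (S.δ φ) ∈ Lst)
    (hδ : ∀ s ∈ inP P, C (S.δ s) - 1 ∈ Lst) (h00 : S.Z i 0 0 - 1 ∈ Lst) (h01 : S.Z i 0 1 ∈ Lst)
    (h10 : S.Z i 1 0 ∈ Lst) : LOCL S Lst (dec P) := by
  intro B A _ _ _ ψ q ρ _ _ hk hL _ _ hA
  have e1 : (S.Z i).map ψ = 1 := by
    have a : ψ (S.Z i 0 0) = 1 := by
      have : ψ _ = 0 := hL h00
      rwa [map_sub, map_one, sub_eq_zero] at this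
    have b : ψ (S.Z i 0 1) = 0 := hL h01
    have c : ψ (S.Z i 1 0) = 0 := hL h10
    have d : ψ (S.Z i 1 1) = 1 := by
      have : ψ _ = 0 := hL (Lst.add_mem di (hδ τ tm.tau))
      rw [sub_add_sub_cancel, Matrix.det_fin_two] at this
      simp only [map_sub, map_mul, map_one, a, b] at this
      linear_combination this
    ext x y
    fin_cases x <;> fin_cases y <;> simp [a, b, c, d]
  have u : IsUnit ((S.Z j).map ψ) := by
    have : ψ _ = 0 := hL dj
    rw [map_sub, sub_eq_zero, RingHom.map_det, RingHom.mapMatrix_apply] at this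
    rw [Matrix.isUnit_iff_isUnit_det, this]
    exact (((Group.isUnit φ).map S.δ).map C).map ψ
  obtain ⟨n, n0, hn⟩ := (isOfFinOrder_of_finite u.unit).exists_pow_eq_one
  have hn' : (S.Z j).map ψ ^ n = 1 := by
    rw [← u.unit_spec, ← Units.val_pow_eq_pow_val, hn, Units.val_one]
  haveI : NeZero n := ⟨n0.ne'⟩
  obtain ⟨δ, V, hV, d1, d2, d3, d4⟩ := Unr.deg hP.1 hP.2.1 hP.2.2 tm.frob n0.ne'
  let σ : dec P →* M2 B :=
    { toFun := fun g => (S.Z j).map ψ ^ (δ g).val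
      map_one' := by rw [show δ (1 : dec P) = 0 from d3 1 (one_mem _), ZMod.val_zero, pow_zero]
      map_mul' := fun g h => by rw [Subgroup.coe_mul, d1 g g.2 h h.2, pw hn'] }
  have z : ∀ g : dec P, δ g = 0 → σ g = 1 := fun g h => by
    show (S.Z j).map ψ ^ (δ g).val = 1
    rw [h, ZMod.val_zero, pow_zero]
  exact ⟨σ, fin hS hP tm hi hj hdet huni hk hA (hL di) (hL dj) (fun s hs => hL (hδ s hs)) σ
    (fun h => (z _ (d3 τ tm.tau)).trans e1.symm) (fun h => by
      show (S.Z j).map ψ ^ (δ φ).val = _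
      rw [d2, pw1 hn']) ⟨V, hV, fun g hg => z g (d4 g hg g.2)⟩
    fun g hg => by rw [z g (d3 g hg), one_pow]⟩

/-- **the ramified type in characteristic two** -/
theorem loclJ (hS : S.Ok) (hP : Ov l P) (tm : Tm l P τ φ) (hi : S.gam i = τ) (hj : S.gam j = φ)
    (hdet : ∀ g, (mx S.rb g).det = 1) (huni : ∀ g ∈ dec P, (mx S.rb g).trace = 0)
    (di : (S.Z i).det - C (S.δ τ) ∈ Lst) (dj : (S.Z j).det - C (S.δ φ) ∈ Lst)
    (hm : ∀ c ∈ maximalIdeal O, C c ∈ Lst) (t1 : (S.Z i).trace ∈ Lst) (t2 : (S.Z j).trace ∈ Lst)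
    (t3 : (S.Z i * S.Z j).trace ∈ Lst) : LOCL S Lst (dec P) := by
  intro B A _ _ _ ψ q ρ _ _ hk hL _ _ hA
  have two : (2 : B) = 0 := by
    have : ψ _ = 0 := hL (hm 2 (two_mem hS))
    rwa [map_ofNat, map_ofNat] at this
  have hδ : ∀ s, C (S.δ s) - 1 ∈ Lst := fun s => by
    have := hm (S.δ s - 1) ((hS.ker _).1 (by rw [map_sub, hS.det, hdet, map_one, sub_self]))
    rwa [map_sub, map_one] at this
  have dt : ∀ {k s}, (S.Z k).det - C (S.δ s) ∈ Lst → ((S.Z k).map ψ).det = 1 := fun {k s} h => by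
    have : ψ _ = 0 := hL (Lst.add_mem h (hδ s))
    rwa [sub_add_sub_cancel, map_sub, map_one, sub_eq_zero, RingHom.map_det] at this
  have tr : ∀ {m : M2 (PP O ι)}, m.trace ∈ Lst → (m.map ψ).trace = 0 := fun {m} h => by
    have : ψ _ = 0 := hL h
    rwa [AddMonoidHom.map_trace] at this
  have a := sq1 two (tr t1) (dt di)
  have b := sq1 two (tr t2) (dt dj)
  have c := sq1 two (tr t3) (by rw [Matrix.map_mul, Matrix.det_mul, dt di, dt dj, mul_one])
  rw [Matrix.map_mul] at c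
  generalize hT : (S.Z i).map ψ = T at a c
  generalize hΦ : (S.Z j).map ψ = Φ at b c
  have cm : Commute Φ T := by
    rw [pow_two] at a b c
    calc Φ * T = T * T * (Φ * T) * (Φ * Φ) := by rw [a, b, one_mul, mul_one]
      _ = T * (T * Φ * (T * Φ)) * Φ := by simp only [mul_assoc]
      _ = T * Φ := by rw [c, mul_one]
  obtain ⟨δ, V, hV, d1, d2, d3, d4⟩ := Unr.deg hP.1 hP.2.1 hP.2.2 tm.frob two_ne_zero
  obtain ⟨W, hW, w0⟩ := Kc.kq_opn (l : Qb)
  let v : GQ → ZMod 2 := fun g => kq (l : Qb) g + kq (l : Qb) φ * δ g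
  have v1 : ∀ g ∈ dec P, ∀ h ∈ dec P, v (g * h) = v g + v h := fun g hg h hh => by
    simp only [v]
    rw [d1 g hg h hh, Kc.kq_add (map_natCast g l) (map_natCast h l)]; ring
  have z : ∀ g, δ g = 0 → kq (l : Qb) g = 0 → Φ ^ (δ g).val * T ^ (v g).val = 1 :=
    fun g h k => by simp [v, h, k]
  let σ : dec P →* M2 B :=
    { toFun := fun g => Φ ^ (δ g).val * T ^ (v g).val
      map_one' := z 1 (d3 1 (one_mem _)) (Kc.kq_id _)
      map_mul' := fun g h => by
        rw [Subgroup.coe_mul, d1 g g.2 h h.2, v1 g g.2 h h.2, pw a, pw b]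
        exact (cm.pow_pow _ _).mul_mul_mul_comm _ _ }
  refine ⟨σ, fin hS hP tm hi hj hdet huni hk hA (hL di) (hL dj) (fun s _ => hL (hδ s)) σ
    (fun h => ?_) (fun h => ?_) ⟨V ⊓ W, hV.inter hW, fun g hg => z g (d4 g hg.1 g.2) (w0 g hg.2)⟩
    fun g hg => ?_⟩
  · show Φ ^ (δ τ).val * T ^ (kq (l : Qb) τ + _ * δ τ).val = _
    rw [d3 τ tm.tau, kq_tau hP tm, mul_zero, add_zero, pw1 a, ZMod.val_zero, pow_zero, one_mul, hT]
  · show Φ ^ (δ φ).val * T ^ (kq (l : Qb) φ + _ * δ φ).val = _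
    rw [d2, mul_one, CharTwo.add_self_eq_zero, pw1 b, ZMod.val_zero, pow_zero, mul_one, hΦ]
  · show (Φ ^ (δ g).val * T ^ (v g).val) ^ 2 = 1
    rw [d3 g hg, ZMod.val_zero, pow_zero, one_mul, ← pow_mul, mul_comm, pow_mul, a, one_pow]

end Vale.Agent.P022G.Pres.T62
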