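import Vale.Agent.P022G.Pres.Sm

/-!
# P022G, the obstruction cocycle
-/

set_option linter.all false

noncomputable section

namespace Vale.Agent.P022G.Pres

open NumberField IsLocalRing
open Vale.Agent.P022
open Vale.Agent.P027M.S (Inert mx)
open Vale.Agent.P022D.Sel (M2)
open Vale.Agent.P022E.GW (Ov Op Ur H1)
open Vale.Agent.P022D.R (opn_of_le ker_set)
open MvPowerSeries (C X)

variable {O F ι : Type} [CommRing O] [Field F] [IsLocalRing O] {S : Dt O F ι}

variable (S) in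
/-- a locally constant section -/
structure Sec (a : Ideal (PP O ι)) (ρ : GQ →* M2 (PP O ι ⧸ a)) (s : GQ → M2 (PP O ι))
    (U : Subgroup GQ) : Prop where
  lift : ∀ g, (s g).map (Ideal.Quotient.mk a) = ρ g
  red : ∀ g, (s g).map S.π0 = mx S.rb g
  det : ∀ g, (s g).det - C (S.δ g) ∈ maximalIdeal (PP O ι) * a
  one : s 1 = 1
  nor : U.Normal
  opn : IsOpen (U : Set GQ)
  unr : ∀ l ∉ S.T, ∀ P : Ideal (𝓞 Qb), Ov l P → ∀ g, Inert P g → g ∈ U
  inv : ∀ u ∈ U, ∀ g, s (g * u) = s g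
  rb : ∀ u ∈ U, S.rb u = 1

variable {a : Ideal (PP O ι)} {ρ : GQ →* M2 (PP O ι ⧸ a)} {s : GQ → M2 (PP O ι)}
  {U : Subgroup GQ} {lam : PP O ι → F}

theorem ex_lift (ha : a ≤ maximalIdeal (PP O ι)) (h : Adm S (Ideal.Quotient.mk a) ρ) (g : GQ) :
    ∃ M : M2 (PP O ι), M.map (Ideal.Quotient.mk a) = ρ g ∧
      M.det - C (S.δ g) ∈ maximalIdeal (PP O ι) * a := by
  choose p hp _ using h.res g
  have e : (Matrix.of p : M2 (PP O ι)).map (Ideal.Quotient.mk a) = ρ g := Matrix.ext hp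
  have hi : (Matrix.of p).det - C (S.δ g) ∈ a := Ideal.Quotient.eq.1 (by
    rw [RingHom.map_det, RingHom.mapMatrix_apply, e, h.det])
  set i := (Matrix.of p).det - C (S.δ g) with hi'
  have dd : (C (S.δ g) : PP O ι) * C (S.δ g⁻¹) = 1 := by
    rw [← map_mul, ← map_mul, mul_inv_cancel, map_one, map_one]
  refine ⟨Matrix.diagonal ![1 - i * C (S.δ g⁻¹), 1] * Matrix.of p, ?_, ?_⟩
  · rw [Matrix.map_mul, e, Matrix.diagonal_map (map_zero _)]
    have e1 : (fun m => Ideal.Quotient.mk a (![1 - i * C (S.δ g⁻¹), 1] m)) = fun _ => 1 := by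
      funext j
      fin_cases j
      · simp [Ideal.Quotient.eq_zero_iff_mem.2 hi]
      · simp
    rw [e1, Matrix.diagonal_one, one_mul]
  · rw [Matrix.det_mul, Matrix.det_diagonal, Fin.prod_univ_two,
      show (Matrix.of p).det = C (S.δ g) + i by rw [hi']; ring]
    convert Ideal.mul_mem_mul (Ideal.mul_mem_left _ (-C (S.δ g⁻¹)) (ha hi)) hi using 1
    simp only [Matrix.cons_val_zero, Matrix.cons_val_one, Matrix.cons_val_fin_one]
    linear_combination (-i) * dd

theorem ex_sec (hS : S.Ok) (ha : a ≤ maximalIdeal (PP O ι)) {k : ℕ}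
    (hk : maximalIdeal (PP O ι) ^ k ≤ a) (h : Adm S (Ideal.Quotient.mk a) ρ) :
    ∃ s U, Sec S a ρ s U := by
  let d : GQ →* PP O ι ⧸ maximalIdeal (PP O ι) * a :=
    ((Ideal.Quotient.mk _).comp (C : O →+* PP O ι)).toMonoidHom.comp S.δ
  let τ := ρ.prod d
  have ex : ∀ x, ∃ M : M2 (PP O ι), (x = 1 → M = 1) ∧ ∀ g, τ g = x →
      M.map (Ideal.Quotient.mk a) = ρ g ∧ M.det - C (S.δ g) ∈ maximalIdeal (PP O ι) * a := by
    intro x
    by_cases h1 : x = 1
    · refine ⟨1, fun _ => rfl, fun g hg => ⟨?_, Ideal.Quotient.eq.1 ?_⟩⟩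
      · rw [Matrix.map_one _ (map_zero _) (map_one _)]
        exact (congrArg Prod.fst (hg.trans h1)).symm
      · rw [Matrix.det_one]
        exact (congrArg Prod.snd (hg.trans h1)).symm
    by_cases h2 : ∃ g, τ g = x
    · obtain ⟨g0, rfl⟩ := h2
      obtain ⟨M, m1, m2⟩ := ex_lift ha h g0
      exact ⟨M, fun k => absurd k h1, fun g hg => ⟨m1.trans (congrArg Prod.fst hg).symm,
        Ideal.Quotient.eq.1 ((Ideal.Quotient.eq.2 m2).trans (congrArg Prod.snd hg).symm)⟩⟩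
    · exact ⟨1, fun _ => rfl, fun g hg => absurd ⟨g, hg⟩ h2⟩
  choose f f1 f2 using ex
  have r := h.red (π := hS.πq ha) fun _ => rfl
  have mem : ∀ g, g ∈ τ.toHomUnits.ker ↔ τ g = 1 := fun g => Units.ext_iff
  refine ⟨fun g => f (τ g), τ.toHomUnits.ker, fun g => (f2 _ g rfl).1, fun g => ?_,
    fun g => (f2 _ g rfl).2, f1 _ (map_one τ), inferInstance, ?_, fun l hl P hP g hg => ?_,
    fun u hu g => by rw [map_mul, (mem u).1 hu, mul_one], fun u hu => Units.ext ?_⟩
  · rw [← r, ← (f2 _ g rfl).1]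
    rfl
  · have od : IsOpen (d.toHomUnits.ker : Set GQ) := by
      refine Subgroup.isOpen_of_mem_nhds _ (g := 1)
        (Filter.mem_of_superset ((hS.dop (k + 1)).mem_nhds (by simp)) fun g hg => Units.ext ?_)
      refine Ideal.Quotient.eq.2 ?_
      have : (maximalIdeal O).map (C : O →+* PP O ι) ≤ maximalIdeal (PP O ι) :=
        Ideal.map_le_iff_le_comap.2 fun c hc => (P022D.L2b.mem_max_iff _).2 (by simpa using hc)
      have h2 := Ideal.mem_map_of_mem (C : O →+* PP O ι)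
        (show S.δ g - 1 ∈ maximalIdeal O ^ (k + 1) from hg)
      rw [Ideal.map_pow, map_sub, map_one] at h2
      have h3 := Ideal.pow_right_mono this _ h2
      rw [pow_succ'] at h3
      exact Ideal.mul_mono_right hk h3
    rw [ker_set] at od ⊢
    convert h.opn.inter od using 1
    exact Set.ext fun g => Prod.ext_iff
  · refine (mem g).2 (Prod.ext (h.unr l hl P hP g hg) ?_)
    show Ideal.Quotient.mk _ (C (S.δ g)) = 1
    rw [hS.dun l hl P hP g hg, map_one, map_one]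
  · show mx S.rb u = 1
    rw [← r, show ρ u = 1 from congrArg Prod.fst ((mem u).1 hu),
      Matrix.map_one _ (map_zero _) (map_one _)]

variable (S) in
/-- the obstruction cocycle -/
def zz (s : GQ → M2 (PP O ι)) : (PP O ι → F) →ₗ[F] (GQ → GQ → M2 F) where
  toFun lam g h := (s g * s h - s (g * h)).map lam * mx S.rb (g * h)⁻¹
  map_add' x y := by
    funext g h
    rw [Pi.add_apply, Pi.add_apply, ← add_mul]
    rfl
  map_smul' c x := by
    funext g h
    rw [RingHom.id_apply, Pi.smul_apply, Pi.smul_apply, ← smul_mul_assoc]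
    rfl

theorem zz_apply (g h : GQ) :
    zz S s lam g h = (s g * s h - s (g * h)).map lam * mx S.rb (g * h)⁻¹ := rfl

theorem Sec.ob (h : Sec S a ρ s U) (g k : GQ) : ∀ i j, (s g * s k - s (g * k)) i j ∈ a :=
  mem_iff.2 (by rw [Matrix.map_mul, h.lift, h.lift, h.lift, map_mul])

theorem det_ne (g : GQ) : (mx S.rb g).det ≠ 0 := fun e => by
  have := congrArg Matrix.det (mxi S.rb g)
  rw [Matrix.det_mul, e, zero_mul, Matrix.det_one] at this
  exact zero_ne_one this

/-- determinant and trace -/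
theorem Sec.tr (h : Sec S a ρ s U) (hS : S.Ok) (ha : a ≤ maximalIdeal (PP O ι))
    (f : Fn S.π0 a lam) (g : GQ) {w : M2 (PP O ι)} (hw : ∀ i j, w i j ∈ a) :
    (s g + w).det - C (S.δ g) ∈ f.K ↔ (w.map lam * mx S.rb g⁻¹).trace = 0 := by
  obtain ⟨d1, d2⟩ := f.det (fun x hx => hS.max.2 (ha hx)) (s g) hw (h.red g) (mxi S.rb g)
  have d3 := f.mulK (fun x hx => hS.max.2 hx) (h.det g)
  rw [show (s g + w).det - C (S.δ g) = ((s g + w).det - (s g).det) + ((s g).det - C (S.δ g)) by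
    ring, Ideal.add_mem_iff_left _ d3]
  show _ ∧ _ ↔ _
  rw [d2, mul_eq_zero, or_iff_right (det_ne g), and_iff_right d1]

/-- multiplicativity and the coboundary equation -/
theorem Sec.mul (h : Sec S a ρ s U) (hS : S.Ok) (ha : a ≤ maximalIdeal (PP O ι))
    (f : Fn S.π0 a lam) (g k : GQ) {u v w : M2 (PP O ι)} (hu : ∀ i j, u i j ∈ a)
    (hv : ∀ i j, v i j ∈ a) (hw : ∀ i j, w i j ∈ a) :
    (∀ i j, ((s g + u) * (s k + v) - (s (g * k) + w)) i j ∈ f.K) ↔
      w.map lam * mx S.rb (g * k)⁻¹ = u.map lam * mx S.rb g⁻¹ +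
        mx S.rb g * (v.map lam * mx S.rb k⁻¹) * mx S.rb g⁻¹ + zz S s lam g k := by
  obtain ⟨k1, k2⟩ := f.key (fun x hx => hS.max.2 (ha hx)) (h.ob g k) hu hv hw
  rw [h.red, h.red] at k2
  have e : ((s g + u) * (s k + v) - (s (g * k) + w)).map lam * mx S.rb (g * k)⁻¹ =
      u.map lam * mx S.rb g⁻¹ + mx S.rb g * (v.map lam * mx S.rb k⁻¹) * mx S.rb g⁻¹ +
        zz S s lam g k - w.map lam * mx S.rb (g * k)⁻¹ := by
    rw [k2, sub_mul, add_mul, add_mul, zz_apply, mul_assoc (u.map lam), mul_inv_rev, mxm,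
      ← mul_assoc (mx S.rb k), mxi, one_mul]
    simp only [mul_assoc]
    abel
  rw [eq_comm, ← sub_eq_zero, ← e]
  refine ⟨fun m => by rw [f.ofK m, zero_mul], fun m => f.memK k1 ?_⟩
  have := congrArg (· * mx S.rb (g * k)) m
  simpa only [mul_assoc, mxi', mul_one, zero_mul] using this

theorem Sec.zc (h : Sec S a ρ s U) (hS : S.Ok) (ha : a ≤ maximalIdeal (PP O ι))
    (f : Fn S.π0 a lam) : Zc S.rb S.T (zz S s lam) where
  tr g k := by
    refine (h.tr hS ha f (g * k) (h.ob g k)).1 (f.mulK (fun x hx => hS.max.2 hx) ?_)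
    rw [add_sub_cancel, Matrix.det_mul, map_mul, map_mul]
    refine Ideal.Quotient.eq.1 ?_
    rw [map_mul, map_mul, Ideal.Quotient.eq.2 (h.det g), Ideal.Quotient.eq.2 (h.det k)]
  coc g k l := by
    have e : s g * (s k * s l - s (k * l)) + (s g * s (k * l) - s (g * (k * l))) =
        (s (g * k) * s l - s (g * k * l)) + (s g * s k - s (g * k)) * s l := by
      rw [mul_sub, sub_mul, mul_assoc g, mul_assoc]; abel
    have e1 := congrArg (fun M : M2 (PP O ι) => M.map lam * mx S.rb (g * k * l)⁻¹) e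
    beta_reduce at e1
    rw [f.addm (meml _ (h.ob k l)) (h.ob _ _), f.addm (h.ob _ _) (memr (h.ob g k) _),
      f.mull _ (h.ob k l), f.mulr (h.ob g k), h.red, h.red, add_mul, add_mul] at e1
    have a1 : mx S.rb (g * k * l)⁻¹ = mx S.rb (k * l)⁻¹ * mx S.rb g⁻¹ := by
      rw [mul_assoc g, mul_inv_rev g, mxm]
    have a2 : mx S.rb l * mx S.rb (g * k * l)⁻¹ = mx S.rb (g * k)⁻¹ := by
      rw [mul_inv_rev _ l, mxm, ← mul_assoc, mxi, one_mul]
    rw [mul_assoc _ (mx S.rb l), a2] at e1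
    rw [zz_apply, zz_apply, zz_apply, zz_apply, ← e1, ← mul_assoc g k l,
      mul_assoc, mul_assoc, ← a1, mul_assoc (mx S.rb g)]
  one g := by
    constructor
    · rw [zz_apply, h.one, one_mul, one_mul, sub_self, f.zerom, zero_mul]
    · rw [zz_apply, h.one, mul_one, mul_one, sub_self, f.zerom, zero_mul]
  inf := by
    have r : ∀ u ∈ U, ∀ g, mx S.rb (g * u)⁻¹ = mx S.rb g⁻¹ := fun u hu g => by
      rw [mul_inv_rev, mxm, show mx S.rb u⁻¹ = 1 from congrArg Units.val (h.rb _ (U.inv_mem hu)),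
        one_mul]
    refine ⟨U, h.nor, h.opn, h.unr, h.rb, fun u hu g k => ⟨?_, ?_⟩⟩
    · have hu' := h.nor.conj_mem' u hu k
      rw [zz_apply, zz_apply, h.inv u hu, show g * u * k = g * k * (k⁻¹ * u * k) by group,
        h.inv _ hu', r _ hu']
    · rw [zz_apply, zz_apply, h.inv u hu, ← mul_assoc g, h.inv u hu, r u hu]

end Vale.Agent.P022G.Pres
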