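import Vale.Agent.P022G.Pres.Uni

/-!
# P022G, small extensions: the calculus of linear forms and the derivation formula
-/

set_option linter.all false

noncomputable section

namespace Vale.Agent.P022G.Pres

open NumberField IsLocalRing
open Vale.Agent.P022
open Vale.Agent.P027M.S (Inert mx)
open Vale.Agent.P022D.Sel (M2)

section fn

variable {A F : Type} [CommRing A] [Field F] {π : A →+* F} {I : Ideal A} {lam : A → F}

theorem Fn.subm (h : Fn π I lam) {M N : M2 A} (hM : ∀ i j, M i j ∈ I) (hN : ∀ i j, N i j ∈ I) :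
    (M - N).map lam = M.map lam - N.map lam := by
  ext i j
  exact h.sub (hM i j) (hN i j)

theorem memadd {M N : M2 A} (hM : ∀ i j, M i j ∈ I) (hN : ∀ i j, N i j ∈ I) (i j : Fin 2) :
    (M + N) i j ∈ I := I.add_mem (hM i j) (hN i j)

theorem memsub {M N : M2 A} (hM : ∀ i j, M i j ∈ I) (hN : ∀ i j, N i j ∈ I) (i j : Fin 2) :
    (M - N) i j ∈ I := I.sub_mem (hM i j) (hN i j)

theorem mem_iff {M N : M2 A} : (∀ i j, (M - N) i j ∈ I) ↔
    M.map (Ideal.Quotient.mk I) = N.map (Ideal.Quotient.mk I) :=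
  ⟨fun h => Matrix.ext fun i j => Ideal.Quotient.eq.2 (h i j),
    fun h i j => Ideal.Quotient.eq.1 (congrFun (congrFun h i) j)⟩

/-- the kernel of a linear form -/
def Fn.K (h : Fn π I lam) : Ideal A where
  carrier := {x | x ∈ I ∧ lam x = 0}
  add_mem' {x y} a b := ⟨I.add_mem a.1 b.1, by rw [h.add x a.1 y b.1, a.2, b.2, add_zero]⟩
  zero_mem' := ⟨I.zero_mem, h.zero⟩
  smul_mem' c x a := ⟨I.mul_mem_left c a.1, by rw [smul_eq_mul, h.mul c x a.1, a.2, mul_zero]⟩

theorem Fn.K_le (h : Fn π I lam) : h.K ≤ I := fun _ k => k.1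

theorem Fn.mulK (h : Fn π I lam) {J : Ideal A} (hJ : ∀ x ∈ J, π x = 0) : J * I ≤ h.K :=
  Ideal.mul_le.2 fun r hr x hx => ⟨I.mul_mem_left r hx, by rw [h.mul r x hx, hJ r hr, zero_mul]⟩

theorem Fn.memK (h : Fn π I lam) {M : M2 A} (hM : ∀ i j, M i j ∈ I) (k : M.map lam = 0)
    (i j : Fin 2) : M i j ∈ h.K := ⟨hM i j, congrFun (congrFun k i) j⟩

theorem Fn.ofK (h : Fn π I lam) {M : M2 A} (hM : ∀ i j, M i j ∈ h.K) : M.map lam = 0 :=
  Matrix.ext fun i j => (hM i j).2

theorem mapz {M : M2 A} (hI : ∀ x ∈ I, π x = 0) (hM : ∀ i j, M i j ∈ I) : M.map π = 0 :=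
  Matrix.ext fun i j => hI _ (hM i j)

theorem Fn.det (h : Fn π I lam) (hI : ∀ x ∈ I, π x = 0) (M : M2 A) {N : M2 A}
    (hN : ∀ i j, N i j ∈ I) {R R' : M2 F} (hR : M.map π = R) (hR' : R * R' = 1) :
    (M + N).det - M.det ∈ I ∧ lam ((M + N).det - M.det) = R.det * (N.map lam * R').trace := by
  have e : (M + N).det - M.det = ((M 0 0 + N 0 0) * N 1 1 + M 1 1 * N 0 0) -
      ((M 0 1 + N 0 1) * N 1 0 + M 1 0 * N 0 1) := by
    simp only [Matrix.det_fin_two, Matrix.add_apply]; ring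
  have m := fun b i j => I.mul_mem_left b (hN i j)
  have a : R.det • R' = R.adjugate := by
    rw [← mul_one R.adjugate, ← hR', ← mul_assoc, Matrix.adjugate_mul, smul_mul_assoc, one_mul]
  refine ⟨e ▸ I.sub_mem (I.add_mem (m _ _ _) (m _ _ _)) (I.add_mem (m _ _ _) (m _ _ _)), ?_⟩
  rw [e, h.sub (I.add_mem (m _ _ _) (m _ _ _)) (I.add_mem (m _ _ _) (m _ _ _)),
    h.add _ (m _ _ _) _ (m _ _ _), h.add _ (m _ _ _) _ (m _ _ _), h.mul _ _ (hN _ _),
    h.mul _ _ (hN _ _), h.mul _ _ (hN _ _), h.mul _ _ (hN _ _), map_add, map_add,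
    hI _ (hN _ _), hI _ (hN _ _), ← smul_eq_mul R.det, ← Matrix.trace_smul, ← mul_smul_comm, a,
    ← hR]
  simp [Matrix.adjugate_fin_two, Matrix.trace_fin_two, Matrix.mul_apply, Fin.sum_univ_two]
  ring

theorem Fn.key (h : Fn π I lam) (hI : ∀ x ∈ I, π x = 0) {a b c u v w : M2 A}
    (hc : ∀ i j, (a * b - c) i j ∈ I) (hu : ∀ i j, u i j ∈ I) (hv : ∀ i j, v i j ∈ I)
    (hw : ∀ i j, w i j ∈ I) : (∀ i j, ((a + u) * (b + v) - (c + w)) i j ∈ I) ∧
    ((a + u) * (b + v) - (c + w)).map lam =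
      (a * b - c).map lam + u.map lam * b.map π + a.map π * v.map lam - w.map lam := by
  have e : (a + u) * (b + v) - (c + w) = (a * b - c) + u * b + a * v + u * v - w := by
    rw [add_mul, mul_add, mul_add]; abel
  have m1 := memadd hc (memr hu b)
  have m2 := memadd m1 (meml a hv)
  have m3 := memadd m2 (meml u hv)
  rw [e]
  refine ⟨memsub m3 hw, ?_⟩
  rw [h.subm m3 hw, h.addm m2 (meml u hv), h.addm m1 (meml a hv), h.addm hc (memr hu b),
    h.mulr hu, h.mull a hv, h.mull u hv, mapz hI hu, zero_mul, add_zero]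

end fn

theorem lc {G X : Type} [Group G] [TopologicalSpace G] [IsTopologicalGroup G] (f : G → X)
    {V : Set G} (hV : IsOpen V) (h1 : (1 : G) ∈ V) (h : ∀ u ∈ V, ∀ g, f (g * u) = f g) :
    IsLocallyConstant f :=
  (IsLocallyConstant.iff_exists_open f).2 fun x => ⟨(fun y => x⁻¹ * y) ⁻¹' V,
    hV.preimage (continuous_const.mul continuous_id), by simpa using h1,
    fun y hy => by rw [← h _ hy x, mul_inv_cancel_left]⟩

section der

open MvPowerSeries

variable {O σ B : Type} [CommRing O] [CommRing B] [Fintype σ]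

theorem dec1 (p : MvPowerSeries σ O) : ∃ g : σ → MvPowerSeries σ O,
    p = C (constantCoeff p) + ∑ s, X s * g s ∧
      ∀ s, coeff (Finsupp.single s 1) p = constantCoeff (g s) := by
  classical
  obtain ⟨g, hg⟩ := P022D.L2b.decomp p
  refine ⟨g, hg, fun s => ?_⟩
  rw [hg, map_add, coeff_C, if_neg (by simp), zero_add, map_sum, Finset.sum_eq_single s]
  · rw [X_def, coeff_monomial_mul, if_pos le_rfl, tsub_self, one_mul, coeff_zero_eq_constantCoeff]
  · intro t _ ht
    rw [X_def, coeff_monomial_mul, if_neg]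
    rw [Finsupp.single_le_iff, Finsupp.single_eq_of_ne ht]
    omega
  · simp

theorem ev (u : O →+* B) (x : σ → B) (hx : ∀ s, IsNilpotent (x s)) :
    ∃ φ : MvPowerSeries σ O →+* B, (∀ c, φ (C c) = u c) ∧ ∀ s, φ (X s) = x s := by
  letI := u.toAlgebra
  obtain ⟨φ, h⟩ := P022D.L2b.exists_ev (O := O) x hx
  exact ⟨φ.toRingHom, fun c => φ.commutes c, h⟩

theorem der0 (φ φ' : MvPowerSeries σ O →+* B) {I J : Ideal B} {k : ℕ} (hJ : J ^ k = ⊥)
    (hx : ∀ s, φ (X s) ∈ J) (hC : ∀ c, φ' (C c) = φ (C c))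
    (hX : ∀ s, φ' (X s) - φ (X s) ∈ I) (p : MvPowerSeries σ O) : φ' p - φ p ∈ I := by
  have key : ∀ r : ℕ, ∀ p, φ' p - φ p ∈ I ⊔ J ^ r := by
    intro r
    induction r with
    | zero => intro p; simp
    | succ r ih =>
      intro p
      obtain ⟨g, hg⟩ := P022D.L2b.decomp p
      rw [hg, map_add, map_add, hC, add_sub_add_left_eq_sub, map_sum, map_sum,
        ← Finset.sum_sub_distrib]
      refine Ideal.sum_mem _ fun s _ => ?_
      obtain ⟨y, hy, z, hz, e⟩ := Submodule.mem_sup.1 (ih (g s))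
      rw [show φ' (X s * g s) - φ (X s * g s) =
        ((φ' (X s) - φ (X s)) * φ' (g s) + φ (X s) * y) + φ (X s) * z by
          rw [map_mul, map_mul]; linear_combination (-φ (X s)) * e]
      exact Submodule.add_mem_sup (I.add_mem (I.mul_mem_right _ (hX s)) (I.mul_mem_left _ hy))
        (by rw [pow_succ']; exact Ideal.mul_mem_mul (hx s) hz)
  have := key k p
  rwa [hJ, sup_bot_eq] at this

theorem der (φ φ' : MvPowerSeries σ O →+* B) {I : Ideal B} (hC : ∀ c, φ' (C c) = φ (C c))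
    (hd : ∀ p, φ' p - φ p ∈ I) (hI : ∀ x ∈ I, ∀ y ∈ I, x * y = 0)
    (hm : ∀ p, constantCoeff p = 0 → ∀ x ∈ I, φ p * x = 0) (p : MvPowerSeries σ O) :
    φ' p - φ p = ∑ s, φ (C (coeff (Finsupp.single s 1) p)) * (φ' (X s) - φ (X s)) := by
  obtain ⟨g, hg, hc⟩ := dec1 p
  simp only [hc]
  rw [hg, map_add, map_add, hC, add_sub_add_left_eq_sub, map_sum, map_sum,
    ← Finset.sum_sub_distrib]
  refine Finset.sum_congr rfl fun s _ => ?_
  have e1 := hI _ (hd (X s)) _ (hd (g s))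
  have e2 := hm (X s) (by simp) _ (hd (g s))
  have e3 := hm (g s - C (constantCoeff (g s))) (by simp) _ (hd (X s))
  rw [map_sub] at e3
  rw [map_mul, map_mul]
  linear_combination e1 + e2 + e3

end der

end Vale.Agent.P022G.Pres
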