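import Vale.Agent.P022G.Pres.Lg

/-!
# P022G, tangent vectors and the count
-/

set_option linter.all false

noncomputable section

namespace Vale.Agent.P022G.Pres

open NumberField IsLocalRing
open Vale.Agent.P022
open Vale.Agent.P027M.S (Inert mx)
open Vale.Agent.P022D.Sel (M2)
open Vale.Agent.P022E.GW (Ov Op Ur H1)
open Vale.Agent.P022D.R (opn_of_le ker_set)
open MvPowerSeries (C X)
open TrivSqZeroExt (inl inr fstHom)

variable {O F ι : Type} [CommRing O] [Field F] [IsLocalRing O] {S : Dt O F ι} [Fintype ι]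

variable (S) in
/-- the tangent vector of a cocycle -/
def tv : (GQ → M2 F) →ₗ[F] (Ix ι → F) where
  toFun c s := (c (S.gam s.1) * mx S.rb (S.gam s.1)) s.2.1 s.2.2
  map_add' x y := by funext s; rw [Pi.add_apply, add_mul]; rfl
  map_smul' c x := by funext s; rw [Pi.smul_apply, smul_mul_assoc]; rfl

theorem tng (hS : S.Ok) {c : GQ → M2 F} (hc : c ∈ H1 S.rb S.T ⊤) (ht : ∀ g, (c g).trace = 0) :
    ∀ j ∈ Jac S, ∑ s, S.lin j s * tv S c s = 0 := by
  let u : F →+* DualNumber F := (TrivSqZeroExt.inlHom F F)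
  let π : DualNumber F →+* F := (fstHom F F F).toRingHom
  obtain ⟨φ, c1, c2⟩ := ev (u.comp S.red) (fun s => inr (tv S c s)) fun s =>
    ⟨2, by rw [pow_two, TrivSqZeroExt.inr_mul_inr]⟩
  have x0 : ∀ s, (u.comp S.π0) (X s) = 0 := fun s => by simp [Dt.π0]
  have c0 : ∀ a, φ (C a) = (u.comp S.π0) (C a) := fun a => by simp [c1, Dt.π0]
  have II : ∀ x ∈ RingHom.ker π, ∀ y ∈ RingHom.ker π, x * y = 0 := fun x hx y hy => by
    have a : x.fst = 0 := hx
    have b : y.fst = 0 := hy
    ext <;> simp [a, b]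
  have d0 := der0 (u.comp S.π0) φ (I := RingHom.ker π) (J := ⊥) (k := 1) (pow_one _)
    (fun s => x0 s) c0 fun s => by rw [x0, c2, sub_zero]; rfl
  have d1 := der (u.comp S.π0) φ c0 d0 II fun p hp x _ => by simp [Dt.π0, hp]
  have fst : ∀ p, (φ p).fst = S.π0 p := fun p => by
    have : (φ p - (u.comp S.π0) p).fst = 0 := d0 p
    rwa [TrivSqZeroExt.fst_sub, sub_eq_zero] at this
  have snd : ∀ p, (φ p).snd = ∑ s, S.lin p s * tv S c s := fun p => by
    have := congrArg TrivSqZeroExt.snd (d1 p)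
    simpa [x0, c2, u, TrivSqZeroExt.snd_sum, Dt.π0, Dt.lin, mul_comm] using this
  intro j hj
  by_contra n
  have jm := hS.max.2 (jac_le hS hj)
  have sur : ∀ x, ∃ p, φ p = x := fun x => by
    obtain ⟨p, hp⟩ := hS.sur x.fst
    obtain ⟨b, hb⟩ := hS.sur ((x.snd - (φ p).snd) * ((φ j).snd)⁻¹)
    refine ⟨p + b * j, TrivSqZeroExt.ext ?_ ?_⟩
    · rw [fst, map_add, map_mul, jm, hp, mul_zero, add_zero]
    · rw [map_add, map_mul, TrivSqZeroExt.snd_add, TrivSqZeroExt.snd_mul, fst, fst, jm, hb]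
      have n' : (φ j).snd ≠ 0 := by rwa [snd]
      simp [n']
  let E : M2 F → M2 F → M2 (DualNumber F) := fun A B => Matrix.of fun a b => inl (A a b) + inr (B a b)
  have E1 : E 1 0 = 1 := by
    ext a b <;> simp [E, Matrix.one_apply] <;> split_ifs <;> simp
  have c1' : c 1 = 0 := by
    have := hc.1 1 trivial 1 trivial
    rw [mul_one, inv_one, mx1, one_mul, mul_one] at this
    exact left_eq_add.1 this
  have one : ∀ g, S.rb g = 1 → c g = 0 → E (mx S.rb g) (c g * mx S.rb g) = 1 := fun g a b => by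
    rw [b, zero_mul, show mx S.rb g = 1 from congrArg Units.val a, E1]
  have EM : ∀ A B A' B', E A B * E A' B' = E (A * A') (B * A' + A * B') := fun A B A' B' => by
    ext a b <;> simp [E, Matrix.mul_apply, Fin.sum_univ_two] <;> ring
  let ρ : GQ →* M2 (DualNumber F) := ⟨⟨fun g => E (mx S.rb g) (c g * mx S.rb g),
    one 1 (map_one _) c1'⟩, fun g k => by
      show E _ _ = _
      rw [EM, hc.1 g trivial k trivial, mxm, add_mul, mul_assoc _ (mx S.rb g⁻¹),
        ← mul_assoc (mx S.rb g⁻¹), mxi', one_mul]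
      simp only [mul_assoc]⟩
  refine n ((snd j).symm.trans (congrArg TrivSqZeroExt.snd (univ (φ := φ) (ρ := ρ) ⟨2, ?_⟩
    ⟨fun i => ?_, fun g => ?_, ?_,
      fun l hl P hP g hg => one g (hS.unr l hl P hP g hg) (hc.2.2.2 l hl P hP g hg),
      fun g a b => ?_⟩ hj : φ j = 0)))
  · rw [pow_two]
    exact Ideal.mul_le.2 fun x hx y hy => (map_mul φ x y).trans
      (II _ ((fst x).trans (hS.max.2 hx)) _ ((fst y).trans (hS.max.2 hy)))
  · refine Matrix.ext fun a b => ?_
    show _ = φ (C _ + X _)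
    rw [map_add, c1, c2]
    exact congrArg (fun x : F => (inl x + inr (tv S c (i, a, b)) : DualNumber F))
      (congrFun (congrFun (hS.lift i).symm a) b)
  · have t := ht g
    rw [Matrix.trace_fin_two] at t
    rw [c1, RingHom.comp_apply, hS.det]
    show (E _ _).det = _
    ext
    · simp [E, u, Matrix.det_fin_two]
    · simp [E, u, Matrix.det_fin_two, Matrix.mul_apply, Fin.sum_univ_two]
      linear_combination (mx S.rb g 0 0 * mx S.rb g 1 1 - mx S.rb g 0 1 * mx S.rb g 1 0) * t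
  · obtain ⟨V, v1, v2⟩ := hc.2.2.1
    rw [← ker_set]
    exact Subgroup.isOpen_mono (H₁ := S.rb.ker ⊓ V) (fun g hg => Units.ext (one g hg.1 (v2 g hg.2)))
      (hS.opn.inter v1)
  · obtain ⟨p, hp⟩ := sur (ρ g a b)
    refine ⟨p, hp, ?_⟩
    rw [← fst, hp]
    simp [ρ, E]

theorem cnt0 (hS : S.Ok) {L : Type} [AddCommGroup L] [Module F L] {N n sv z1 : ℕ}
    (Θ : L →ₗ[F] (Fin N → F)) (Ev : L →ₗ[F] (Fin n → F)) (hE : Function.Surjective Ev)
    (e : Fin n → PP O ι) (he : ∀ i, e i ∈ Jac S) (j : Fin sv → PP O ι) (hj : ∀ a, j a ∈ Jac S)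
    (li : LinearIndependent F fun a => S.lin (j a)) (c : Fin z1 → GQ → M2 F)
    (hc : ∀ a, c a ∈ H1 S.rb S.T ⊤ ∧ ∀ g, (c a g).trace = 0) (lc : LinearIndependent F c)
    (h : ∀ l, Θ l = 0 → ∃ D : Ix ι → F, (∀ a, ∑ s, S.lin (j a) s * D s = 0) ∧
      ∀ i, Ev l i = ∑ s, S.lin (e i) s * D s) : n + sv + z1 ≤ N + 4 * Fintype.card ι := by
  classical
  let A : Matrix (Fin sv) (Ix ι) F := Matrix.of fun a => S.lin (j a)
  let M : Matrix (Fin n) (Ix ι) F := Matrix.of fun i => S.lin (e i)
  let W := LinearMap.ker A.mulVecLin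
  have h1 : sv + Module.finrank F W = 4 * Fintype.card ι := by
    have := A.mulVecLin.finrank_range_add_finrank_ker
    rw [show Module.finrank F (LinearMap.range A.mulVecLin) = A.rank from rfl,
      LinearIndependent.rank_matrix (M := A) li] at this
    simpa [mul_comm] using this
  let Q := LinearMap.range (M.mulVecLin.comp W.subtype)
  have h2 := (M.mulVecLin.comp W.subtype).finrank_range_add_finrank_ker
  have h3 : z1 ≤ Module.finrank F (LinearMap.ker (M.mulVecLin.comp W.subtype)) := by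
    have l1 : LinearIndependent F (tv S ∘ c) := lc.map (Submodule.disjoint_def.2 fun x hx k =>
      hS.gen x (Submodule.span_le.2 (by rintro _ ⟨a, rfl⟩; exact (hc a).1) hx) fun i => by
        have : x (S.gam i) * mx S.rb (S.gam i) = 0 :=
          Matrix.ext fun a b => congrFun (LinearMap.mem_ker.1 k) (i, a, b)
        rw [← mul_one (x _), ← mxi S.rb (S.gam i), ← mul_assoc, this, zero_mul])
    let v : Fin z1 → LinearMap.ker (M.mulVecLin.comp W.subtype) := fun a =>
      ⟨⟨tv S (c a), funext fun b => tng hS (hc a).1 (hc a).2 _ (hj b)⟩,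
        funext fun i => tng hS (hc a).1 (hc a).2 _ (he i)⟩
    simpa using (LinearIndependent.of_comp (v := v)
      (W.subtype.comp (LinearMap.ker _).subtype) l1).fintype_card_le_finrank
  have h4 : Module.finrank F ((Fin n → F) ⧸ Q) ≤ N := by
    let f := (LinearMap.ker Θ).liftQ (Q.mkQ.comp Ev) fun l hl => by
      obtain ⟨D, d1, d2⟩ := h l hl
      exact (Submodule.Quotient.mk_eq_zero Q).2 ⟨⟨D, funext d1⟩, (funext d2).symm⟩
    have sf : Function.Surjective (f.comp Θ.quotKerEquivRange.symm.toLinearMap) := fun y => by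
      obtain ⟨l, rfl⟩ := (Q.mkQ_surjective.comp hE) y
      exact ⟨Θ.quotKerEquivRange (Submodule.Quotient.mk l), by simp [f]⟩
    exact (LinearMap.finrank_le_finrank_of_surjective sf).trans
      ((Submodule.finrank_le _).trans (by simp))
  have h5 := Q.finrank_quotient_add_finrank
  rw [Module.finrank_fin_fun] at h5
  change Module.finrank F Q + _ = _ at h2
  omega

end Vale.Agent.P022G.Pres
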