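import Vale.Agent.P022G.Obs.Defs

/-!
# P022G, the number of cocycles with values in the matrices of trace zero
-/

set_option linter.all false

noncomputable section

namespace Vale.Agent.P022G.Pres

open NumberField
open Vale.Agent.P022
open Vale.Agent.P027M.S (Inert mx)
open Vale.Agent.P022D.Sel (M2 IsDec)
open Vale.Agent.P022E.GW (Ov Op Ur H1 Zt Ft CHR)
open Vale.Agent.P022G.Obs (Dz Nd)

variable {F : Type} [Field F] {ρ : GQ →* GL (Fin 2) F} {H : Subgroup GQ}

variable (ρ) in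
/-- the adjoint action -/
def ac (g : GQ) : M2 F →ₗ[F] M2 F where
  toFun y := mx ρ g * y * mx ρ g⁻¹
  map_add' a b := by rw [mul_add, add_mul]
  map_smul' r a := by rw [mul_smul_comm, smul_mul_assoc]; rfl

theorem ac_def (g : GQ) (y : M2 F) : ac ρ g y = mx ρ g * y * mx ρ g⁻¹ := rfl

theorem mx_mul (g h : GQ) : mx ρ (g * h) = mx ρ g * mx ρ h := by
  simp only [mx, map_mul, Units.val_mul]

theorem mx_one : mx ρ 1 = 1 := by simp only [mx, map_one, Units.val_one]

theorem mx_inv (g : GQ) : mx ρ g * mx ρ g⁻¹ = 1 := by rw [← mx_mul, mul_inv_cancel, mx_one]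

theorem ac_mul (g h : GQ) (y : M2 F) : ac ρ (g * h) y = ac ρ g (ac ρ h y) := by
  simp only [ac_def, mul_inv_rev, mx_mul, mul_assoc]

theorem ac_triv {g : GQ} (h : ρ g = 1) (y : M2 F) : ac ρ g y = y := by
  rw [ac_def, mx, mx, map_inv, h, inv_one, Units.val_one, mul_one, one_mul]

theorem ac_tr (g : GQ) (y : M2 F) : (ac ρ g y).trace = y.trace := by
  rw [ac_def, Matrix.trace_mul_comm, ← mul_assoc, ← mx_mul, inv_mul_cancel, mx_one, one_mul]

theorem ac_one (g : GQ) : ac ρ g 1 = 1 := by rw [ac_def, mul_one, mx_inv]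

theorem mem_of_one (hz : Dz ρ H) {g : GQ} (h : ρ g = 1) : g ∈ H := by
  by_contra hn
  have h1 := (hz.ad g hn).1
  rw [mx, h] at h1
  simp at h1

theorem mul_mem2 (hz : Dz ρ H) {g h : GQ} (hg : g ∉ H) (hh : h ∉ H) : g * h ∈ H := by
  by_contra hn
  have h1 := (hz.ad _ hn).1
  rw [mx_mul, Matrix.mul_apply, Fin.sum_univ_two, (hz.ad g hg).1, zero_mul, zero_add] at h1
  have h2 := congrFun (congrFun (mx_inv (ρ := ρ) g) 0) 0
  have h3 := congrFun (congrFun (mx_inv (ρ := ρ) h) 1) 1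
  rw [Matrix.mul_apply, Fin.sum_univ_two, (hz.ad g hg).1] at h2
  rw [Matrix.mul_apply, Fin.sum_univ_two, (hz.ad h hh).2] at h3
  rcases mul_eq_zero.1 h1 with h4 | h4
  · rw [h4] at h2; simp at h2
  · rw [h4] at h3; simp at h3

theorem opnH (hz : Dz ρ H) : IsOpen (H : Set GQ) :=
  Subgroup.isOpen_mono (H₁ := ρ.ker) (fun g hg => mem_of_one hz hg) hz.opn

theorem ac_dg (hz : Dz ρ H) {g : GQ} (hg : g ∈ H) (y : M2 F) (i j : Fin 2) :
    ac ρ g y i j = mx ρ g i i * mx ρ g⁻¹ j j * y i j := by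
  have h1 := hz.dg g hg
  have h2 := hz.dg g⁻¹ (H.inv_mem hg)
  fin_cases i <;> fin_cases j <;>
    simp [ac_def, Matrix.mul_apply, Fin.sum_univ_two, h1.1, h1.2, h2.1, h2.2, -map_inv] <;> ring

theorem ac_ad (hz : Dz ρ H) {g : GQ} (hg : g ∉ H) (y : M2 F) (i j : Fin 2) :
    ac ρ g y i j = mx ρ g i i.rev * mx ρ g⁻¹ j.rev j * y i.rev j.rev := by
  have h1 := hz.ad g hg
  have h2 := hz.ad g⁻¹ fun h => hg (by simpa using H.inv_mem h)
  fin_cases i <;> fin_cases j <;>
    simp [ac_def, Matrix.mul_apply, Fin.sum_univ_two, h1.1, h1.2, h2.1, h2.2, -map_inv,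
      Fin.rev] <;> ring

theorem inv_dg (hz : Dz ρ H) {g : GQ} (hg : g ∈ H) (i : Fin 2) :
    mx ρ g i i * mx ρ g⁻¹ i i = 1 := by
  have h := ac_dg hz hg 1 i i
  rw [ac_one, Matrix.one_apply_eq, mul_one] at h
  exact h.symm

theorem inv_ad (hz : Dz ρ H) {g : GQ} (hg : g ∉ H) (i : Fin 2) :
    mx ρ g i i.rev * mx ρ g⁻¹ i.rev i = 1 := by
  have h := ac_ad hz hg 1 i i
  rw [ac_one, Matrix.one_apply_eq, Matrix.one_apply_eq, mul_one] at h
  exact h.symm

theorem ac_sc (hz : Dz ρ H) {g : GQ} (hg : g ∈ H) (h : mx ρ g 0 0 = mx ρ g 1 1) (y : M2 F) :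
    ac ρ g y = y := by
  ext i j
  have h1 : mx ρ g i i = mx ρ g j j := by fin_cases i <;> fin_cases j <;> simp [h]
  rw [ac_dg hz hg, h1, inv_dg hz hg, one_mul]

variable (ρ H) in
open Classical in
/-- the number of invariants of `D` in the matrices with zero diagonal -/
def wd (D : Subgroup GQ) : ℕ :=
  if ∃ g ∈ D, g ∈ H ∧ mx ρ g 0 0 ≠ mx ρ g 1 1 then 0 else if ∃ g ∈ D, g ∉ H then 1 else 2

theorem nd_wd (D : Subgroup GQ) : Nd ρ H D (wd ρ H D) := by
  unfold wd
  split_ifs with h1 h2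
  · exact Or.inr (Or.inr h1)
  · exact Or.inr (Or.inl ⟨le_rfl, h2⟩)
  · exact Or.inl le_rfl

theorem ex_e (hz : Dz ρ H) (D : Subgroup GQ) :
    ∃ e : (Fin (wd ρ H D) → F) →ₗ[F] M2 F, (∀ v, e v 0 1 = 0 → e v 1 0 = 0 → v = 0) ∧
      ∀ v, ∀ d ∈ D, ac ρ d (e v) = e v := by
  have key : ∀ n, wd ρ H D = n → ∃ e : (Fin n → F) →ₗ[F] M2 F,
      (∀ v, e v 0 1 = 0 → e v 1 0 = 0 → v = 0) ∧ ∀ v, ∀ d ∈ D, ac ρ d (e v) = e v := by
    intro n hn
    unfold wd at hn
    split_ifs at hn with h1 h2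
    · subst hn
      exact ⟨0, fun v _ _ => Subsingleton.elim _ _, fun v d _ => by simp⟩
    · subst hn
      push Not at h1
      obtain ⟨s, hs, hsH⟩ := h2
      let x : M2 F := !![0, 1; 0, 0] + ac ρ s !![0, 1; 0, 0]
      have hsi : s⁻¹ ∉ H := fun h => hsH (by simpa using H.inv_mem h)
      have hx : ∀ d ∈ D, ac ρ d x = x := by
        intro d hd
        by_cases hdH : d ∈ H
        · exact ac_sc hz hdH (h1 d hd hdH) _
        · have e1 : d = s * (s⁻¹ * d) := by group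
          have m1 := mul_mem2 hz hsi hdH
          have m2 := mul_mem2 hz hsH hsH
          rw [e1, ac_mul, ac_sc hz m1 (h1 _ (D.mul_mem (D.inv_mem hs) hd) m1), map_add, ← ac_mul,
            ac_sc hz m2 (h1 _ (D.mul_mem hs hs) m2), add_comm]
      refine ⟨(LinearMap.proj 0).smulRight x, fun v h _ => ?_, fun v d hd => ?_⟩
      · have h3 : x 0 1 = 1 := by
          simp [x, ac_ad hz hsH, Fin.rev]
        rw [LinearMap.smulRight_apply, Matrix.smul_apply, h3, smul_eq_mul, mul_one] at h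
        funext i
        rw [Subsingleton.elim i 0]
        exact h
      · rw [LinearMap.smulRight_apply, map_smul, hx d hd]
    · subst hn
      push Not at h1 h2
      refine ⟨(LinearMap.proj 0).smulRight !![0, 1; 0, 0] +
        (LinearMap.proj 1).smulRight !![0, 0; 1, 0], fun v h h' => ?_,
        fun v d hd => ac_sc hz (h2 d hd) (h1 d hd (h2 d hd)) _⟩
      funext i
      fin_cases i
      · simpa using h
      · simpa using h'
  exact key _ rfl

variable (ρ) in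
/-- the characters of the diagonal subgroup -/
def th (i j : Fin 2) (g : GQ) : F := mx ρ g i i * mx ρ g⁻¹ j j

theorem th_one {g : GQ} (h : ρ g = 1) (i j : Fin 2) : th ρ i j g = 1 := by
  rw [th, mx, mx, map_inv, h, inv_one, Units.val_one, Matrix.one_apply_eq, Matrix.one_apply_eq,
    one_mul]

theorem dg_mul (hz : Dz ρ H) {g : GQ} (hg : g ∈ H) (h : GQ) (i : Fin 2) :
    mx ρ (g * h) i i = mx ρ g i i * mx ρ h i i := by
  have h1 := hz.dg g hg
  rw [mx_mul, Matrix.mul_apply, Fin.sum_univ_two]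
  fin_cases i <;> simp [h1.1, h1.2]

theorem chr_th [Finite F] [CharP F 2] (hC : CHR) (hz : Dz ρ H) {T : Finset ℕ} (hu : Un T ρ)
    (h0 : 0 ∈ T) (h2 : 2 ∈ T) {D : ℕ → Subgroup GQ} (hD : ∀ l ∈ T, IsDec l (D l : Set GQ))
    {i j : Fin 2} (hr : ∃ g ∈ H, mx ρ g i i ≠ mx ρ g j j) :
    Module.rank F (Ft (th ρ i j) T (fun l => (D l : Set GQ)) H) + 1 ≤
      Module.rank F (Zt (th ρ i j) T H) := by
  refine (hC F H (th ρ i j) T _ (opnH hz) (th_one (map_one ρ) i j) (fun g hg h hh => ?_)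
    ⟨ρ.ker, hz.opn, fun σ hσ => th_one hσ i j⟩ h0 h2 hD
    (fun l hl P hP g _ hg => th_one (hu l hl P hP g hg) i j)).2 ?_
  · rw [th, th, th, mul_inv_rev, dg_mul hz hg, dg_mul hz (H.inv_mem hh)]
    ring
  · obtain ⟨g, hg, hne⟩ := hr
    refine ⟨g, hg, fun h => hne ?_⟩
    have h1 := inv_dg hz hg j
    rw [th] at h
    linear_combination (mx ρ g j j) * h - (mx ρ g i i) * h1

theorem chr_one [Finite F] [CharP F 2] (hC : CHR) {T : Finset ℕ}
    (h0 : 0 ∈ T) (h2 : 2 ∈ T) {D : ℕ → Subgroup GQ} (hD : ∀ l ∈ T, IsDec l (D l : Set GQ)) :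
    (T.card : Cardinal) ≤ Module.rank F (Zt (fun _ => (1 : F)) T ⊤) := by
  classical
  refine le_trans ?_ (hC F ⊤ (fun _ => 1) T (fun l => (D l : Set GQ)) isOpen_univ rfl
    (fun _ _ _ _ => (mul_one _).symm) ⟨⊤, isOpen_univ, fun _ _ => rfl⟩ h0 h2 hD
    (fun _ _ _ _ _ _ _ => rfl)).1
  let Φ : (T → F) →ₗ[F] (ℕ → GQ → F) :=
    { toFun := fun v l _ => if h : l ∈ T then v ⟨l, h⟩ else 0
      map_add' := fun a b => by funext l g; by_cases h : l ∈ T <;> simp [h]
      map_smul' := fun r a => by funext l g; by_cases h : l ∈ T <;> simp [h] }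
  have h1 := LinearMap.rank_le_of_injective
    (Φ.codRestrict (Ft (fun _ => (1 : F)) T (fun l => (D l : Set GQ)) ⊤) fun v =>
      ⟨fun l hl => funext fun g => dif_neg hl, fun l γ _ g => (one_mul _).symm,
        fun l d _ g => rfl⟩) (by
      refine (injective_iff_map_eq_zero _).2 fun v hv => funext fun l => ?_
      have h3 := congrFun (congrFun (congrArg Subtype.val hv) l) 1
      exact (dif_pos l.2).symm.trans h3)
  rwa [rank_fun', Fintype.card_coe] at h1

theorem ex_X (hz : Dz ρ H) (T : Finset ℕ) (D : ℕ → Subgroup GQ) :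
    ∃ (V : Type) (_ : AddCommGroup V) (_ : Module F V)
      (X : ∀ i j, V →ₗ[F] Ft (th ρ i j) T (fun l => (D l : Set GQ)) H) (x : V → ℕ → M2 F),
      Module.rank F V = ((∑ l ∈ T, wd ρ H (D l) : ℕ) : Cardinal) ∧
      (∀ i j v l g, (X i j v).1 l g = ac ρ g (x v l) i j) ∧
      ∀ v, (∀ l, x v l 0 1 = 0 ∧ x v l 1 0 = 0) → v = 0 := by
  classical
  choose e he1 he2 using fun l : ℕ => ex_e hz (D l)
  let x : (∀ l : T, Fin (wd ρ H (D l)) → F) →ₗ[F] (ℕ → M2 F) :=
    { toFun := fun v l => if h : l ∈ T then e l (v ⟨l, h⟩) else 0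
      map_add' := fun a b => by funext l; by_cases h : l ∈ T <;> simp [h]
      map_smul' := fun r a => by funext l; by_cases h : l ∈ T <;> simp [h] }
  have hx : ∀ v l, ∀ d ∈ D l, ac ρ d (x v l) = x v l := fun v l d hd => by
    by_cases h : l ∈ T
    · have h1 : x v l = e l (v ⟨l, h⟩) := dif_pos h
      rw [h1, he2 l _ d hd]
    · have h1 : x v l = 0 := dif_neg h
      rw [h1, map_zero]
  let Φ : Fin 2 → Fin 2 → (∀ l : T, Fin (wd ρ H (D l)) → F) →ₗ[F] (ℕ → GQ → F) := fun i j =>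
    { toFun := fun v l g => ac ρ g (x v l) i j
      map_add' := fun a b => by funext l g; simp
      map_smul' := fun r a => by funext l g; simp }
  refine ⟨∀ l : T, Fin (wd ρ H (D l)) → F, inferInstance, inferInstance,
    fun i j => (Φ i j).codRestrict _ fun v => ⟨fun l hl => funext fun g => ?_,
      fun l γ hγ g => ?_, fun l d hd g => ?_⟩, fun v => x v, ?_, fun _ _ _ _ _ => rfl,
    fun v hv => funext fun l => he1 l _ ?_ ?_⟩
  · have h1 : x v l = 0 := dif_neg hl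
    show ac ρ g (x v l) i j = 0
    rw [h1, map_zero, Matrix.zero_apply]
  · show ac ρ (γ * g) (x v l) i j = th ρ i j γ * ac ρ g (x v l) i j
    rw [ac_mul, ac_dg hz hγ, th]
  · show ac ρ (g * d) (x v l) i j = ac ρ g (x v l) i j
    rw [ac_mul, hx v l d hd]
  · rw [← Module.finrank_eq_rank, Module.finrank_pi_fintype, ← Finset.sum_coe_sort T]
    simp
  · have h1 : x v l = e l (v l) := dif_pos l.2
    rw [← h1]; exact (hv l).1
  · have h1 : x v l = e l (v l) := dif_pos l.2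
    rw [← h1]; exact (hv l).2

variable (ρ) in
/-- the cocycles of trace zero -/
def V0 (T : Finset ℕ) : Submodule F (GQ → M2 F) :=
  H1 ρ T ⊤ ⊓ ⨅ g, LinearMap.ker ((Matrix.traceLinearMap (Fin 2) F F).comp (LinearMap.proj g))

theorem mem_V0 {T : Finset ℕ} {c : GQ → M2 F} : c ∈ V0 ρ T ↔
    ((∀ g h, c (g * h) = c g + ac ρ g (c h)) ∧ Op c ∧ Ur T c) ∧ ∀ g, (c g).trace = 0 := by
  rw [V0, Submodule.mem_inf, Submodule.mem_iInf]
  exact and_congr ⟨fun h => ⟨fun g k => h.1 g trivial k trivial, h.2.2⟩,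
    fun h => ⟨fun g _ k _ => h.1 g k, fun g hg => absurd trivial hg, h.2⟩⟩ Iff.rfl

theorem sc_mem [CharP F 2] {T : Finset ℕ} {a : GQ → F} (ha : a ∈ Zt (fun _ => (1 : F)) T ⊤) :
    (fun g => a g • (1 : M2 F)) ∈ V0 ρ T := by
  refine mem_V0.2 ⟨⟨fun g h => ?_, ha.2.2.1.imp fun U hU => ⟨hU.1, fun σ hσ => ?_⟩,
    fun l hl P hP g hg => ?_⟩, fun g => ?_⟩
  · rw [ha.1 g trivial h trivial, one_mul, add_smul, map_smul, ac_one]
  · show a σ • _ = _
    rw [hU.2 σ hσ, zero_smul]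
  · show a g • _ = _
    rw [ha.2.2.2 l hl P hP g hg, zero_smul]
  · rw [Matrix.trace_smul, Matrix.trace_one, Fintype.card_fin, smul_eq_mul]
    have h2 : ((2 : ℕ) : F) = 0 := CharP.cast_eq_zero F 2
    rw [h2, mul_zero]

theorem sg_coc (hz : Dz ρ H) {T : Finset ℕ} {i j : Fin 2} {f : GQ → F}
    (hf : f ∈ Zt (th ρ i j) T H) {g h : GQ} (hg : g ∈ H) (hh : h ∈ H) :
    Matrix.single i j (f (g * h)) = Matrix.single i j (f g) + ac ρ g (Matrix.single i j (f h)) := by
  ext a b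
  rw [Matrix.add_apply, ac_dg hz hg, hf.1 g hg h hh]
  by_cases e : i = a ∧ j = b
  · obtain ⟨rfl, rfl⟩ := e
    simp [th]
  · simp [Matrix.single, e]

theorem sg_mem (hz : Dz ρ ⊤) {T : Finset ℕ} {i j : Fin 2} (hij : i ≠ j) {f : GQ → F}
    (hf : f ∈ Zt (th ρ i j) T ⊤) : (fun g => Matrix.single i j (f g)) ∈ V0 ρ T := by
  refine mem_V0.2 ⟨⟨fun g h => sg_coc hz hf trivial trivial,
    hf.2.2.1.imp fun U hU => ⟨hU.1, fun σ hσ => ?_⟩, fun l hl P hP g hg => ?_⟩, fun g => ?_⟩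
  · show Matrix.single i j (f σ) = 0
    rw [hU.2 σ hσ, Matrix.single_zero]
  · show Matrix.single i j (f g) = 0
    rw [hf.2.2.2 l hl P hP g hg, Matrix.single_zero]
  · exact Matrix.trace_single_eq_of_ne _ _ _ hij

variable (ρ H) in
open Classical in
/-- the extension of a cochain of `H` -/
def ph (s : GQ) (f : GQ → F) (x : GQ) : M2 F :=
  if x ∈ H then Matrix.single 0 1 (f x) else ac ρ s (Matrix.single 0 1 (f (s⁻¹ * x)))

theorem ph_in {s : GQ} {f : GQ → F} {x : GQ} (h : x ∈ H) :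
    ph ρ H s f x = Matrix.single 0 1 (f x) := if_pos h

theorem ph_out {s : GQ} {f : GQ → F} {x : GQ} (h : x ∉ H) :
    ph ρ H s f x = ac ρ s (Matrix.single 0 1 (f (s⁻¹ * x))) := if_neg h

theorem cor_mem (hz : Dz ρ H) {T : Finset ℕ} (hu : Un T ρ) {s : GQ} (hs : s ∉ H) {f : GQ → F}
    (hf : f ∈ Zt (th ρ 0 1) T H) : (fun g => ph ρ H s f g + ph ρ H s f (g * s)) ∈ V0 ρ T := by
  have hsi : s⁻¹ ∉ H := fun h => hs (by simpa using H.inv_mem h)
  have hl : ∀ {g}, g ∈ H → g * s ∉ H := fun hg h => hs ((H.mul_mem_cancel_left hg).1 h)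
  have hm : ∀ x, ∀ h ∈ H, ph ρ H s f (x * h) = ph ρ H s f x + ac ρ x (Matrix.single 0 1 (f h)) := by
    intro x h hh
    by_cases hx : x ∈ H
    · rw [ph_in hx, ph_in (H.mul_mem hx hh), sg_coc hz hf hx hh]
    · rw [ph_out hx, ph_out fun e => hx ((H.mul_mem_cancel_right hh).1 e), ← mul_assoc,
        sg_coc hz hf (mul_mem2 hz hsi hx) hh, map_add, ← ac_mul, mul_inv_cancel_left]
  have hv : ∀ g, g ∈ H → f g = 0 → f (s⁻¹ * g * s) = 0 →
      ph ρ H s f g + ph ρ H s f (g * s) = 0 := fun g hg h1 h2 => by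
    rw [ph_in hg, ph_out (hl hg), ← mul_assoc, h1, h2, Matrix.single_zero, map_zero, add_zero]
  refine mem_V0.2 ⟨⟨fun g h => ?_, ?_, fun l hl' P hP g hg => ?_⟩, fun g => ?_⟩
  · by_cases hh : h ∈ H
    · have m1 : s⁻¹ * (h * s) ∈ H := mul_mem2 hz hsi (hl hh)
      have e1 : g * h * s = g * s * (s⁻¹ * (h * s)) := by group
      rw [e1, hm _ _ m1, hm g h hh, ph_in hh, ph_out (hl hh), map_add, ac_mul]
      abel
    · have m1 : s⁻¹ * h ∈ H := mul_mem2 hz hsi hh
      have m2 : h * s ∈ H := mul_mem2 hz hh hs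
      have e1 : g * h = g * s * (s⁻¹ * h) := by group
      rw [mul_assoc g h s, hm _ _ m2, e1, hm _ _ m1, ph_out hh, ph_in m2, map_add, ac_mul]
      abel
  · obtain ⟨U, hU, hU0⟩ := hf.2.2.1
    refine ⟨H ⊓ U ⊓ U.comap (MulAut.conj s⁻¹).toMonoidHom, ((opnH hz).inter hU).inter
      (hU.preimage (f := fun g => s⁻¹ * g * s⁻¹⁻¹) (by fun_prop)), fun σ hσ =>
      hv σ hσ.1.1 (hU0 σ hσ.1.2) (hU0 _ ?_)⟩
    have h1 : s⁻¹ * σ * s⁻¹⁻¹ ∈ U := hσ.2
    rwa [inv_inv] at h1
  · refine hv g (mem_of_one hz (hu l hl' P hP g hg)) (hf.2.2.2 l hl' P hP g hg)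
      (hf.2.2.2 l hl' (P.comap (MulSemiringAction.toRingHom GQ (𝓞 Qb) s))
        ⟨hP.1, have := hP.2.1; Ideal.comap_isPrime _ _, ?_⟩ _ fun x => ?_)
    · rw [Ideal.mem_comap, map_natCast]
      exact hP.2.2
    · rw [Ideal.mem_comap, MulSemiringAction.toRingHom_apply, smul_sub, ← mul_smul,
        show s * (s⁻¹ * g * s) = g * s by group, mul_smul]
      exact hg _
  · have h1 : ∀ x, (ph ρ H s f x).trace = 0 := fun x => by
      by_cases hx : x ∈ H
      · rw [ph_in hx]; exact Matrix.trace_single_eq_of_ne _ _ _ (by decide)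
      · rw [ph_out hx, ac_tr]; exact Matrix.trace_single_eq_of_ne _ _ _ (by decide)
    rw [Matrix.trace_add, h1, h1, add_zero]

theorem cob_mem (hz : Dz ρ H) {T : Finset ℕ} (hu : Un T ρ) {y : M2 F} :
    (fun g => ac ρ g y - y) ∈ V0 ρ T := by
  refine mem_V0.2 ⟨⟨fun g h => ?_, ⟨ρ.ker, hz.opn, fun σ hσ => ?_⟩, fun l hl P hP g hg => ?_⟩,
    fun g => ?_⟩
  · rw [map_sub, ac_mul]; abel
  · show ac ρ σ y - y = 0
    rw [ac_triv hσ, sub_self]
  · show ac ρ g y - y = 0
    rw [ac_triv (hu l hl P hP g hg), sub_self]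
  · rw [Matrix.trace_sub, ac_tr, sub_self]

theorem rank_V0 [Finite F] [CharP F 2] (hC : CHR) (hz : Dz ρ H) {T : Finset ℕ} (hu : Un T ρ)
    (h0 : 0 ∈ T) (h2 : 2 ∈ T) {D : ℕ → Subgroup GQ} (hD : ∀ l ∈ T, IsDec l (D l : Set GQ))
    (hr : ∃ g ∈ H, mx ρ g 0 0 ≠ mx ρ g 1 1) :
    ((T.card + ∑ l ∈ T, wd ρ H (D l) + 2 : ℕ) : Cardinal) ≤ Module.rank F (V0 ρ T) := by
  have c1 := chr_one (F := F) hC h0 h2 hD
  have c2 := chr_th hC hz hu h0 h2 hD hr
  obtain ⟨V, _, _, X, x, hV, hX, hx⟩ := ex_X hz T D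
  by_cases hH : H = ⊤
  · subst hH
    have c3 := chr_th (i := 1) (j := 0) hC hz hu h0 h2 hD (hr.imp fun g h => ⟨h.1, h.2.symm⟩)
    have c4 := LinearMap.rank_le_of_injective ((X 0 1).prod (X 1 0)) (by
      refine (injective_iff_map_eq_zero _).2 fun v hv => hx v fun l => ⟨?_, ?_⟩
      · have h1 := hX 0 1 v l 1
        rw [show X 0 1 v = 0 from congrArg Prod.fst hv, ac_triv (map_one ρ)] at h1
        exact h1.symm
      · have h1 := hX 1 0 v l 1
        rw [show X 1 0 v = 0 from congrArg Prod.snd hv, ac_triv (map_one ρ)] at h1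
        exact h1.symm)
    let Φ : (Zt (fun _ => (1 : F)) T ⊤ × Zt (th ρ 0 1) T ⊤ × Zt (th ρ 1 0) T ⊤) →ₗ[F]
        (GQ → M2 F) :=
      { toFun := fun z g => z.1.1 g • (1 : M2 F) + Matrix.single 0 1 (z.2.1.1 g) +
          Matrix.single 1 0 (z.2.2.1 g)
        map_add' := fun a b => by
          funext g
          simp only [Prod.fst_add, Prod.snd_add, Submodule.coe_add, Pi.add_apply, add_smul,
            Matrix.single_add]
          abel
        map_smul' := fun r a => by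
          funext g
          simp only [Prod.smul_fst, Prod.smul_snd, Submodule.coe_smul, Pi.smul_apply,
            RingHom.id_apply, smul_add, Matrix.smul_single, smul_smul, smul_eq_mul] }
    have c5 := LinearMap.rank_le_of_injective (Φ.codRestrict (V0 ρ T) fun z =>
      add_mem (add_mem (sc_mem z.1.2) (sg_mem hz (by decide) z.2.1.2))
        (sg_mem hz (by decide) z.2.2.2)) (by
      refine (injective_iff_map_eq_zero _).2 fun z hv => ?_
      have h1 : ∀ g i j, (z.1.1 g • (1 : M2 F) + Matrix.single 0 1 (z.2.1.1 g) +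
          Matrix.single 1 0 (z.2.2.1 g) : M2 F) i j = 0 := fun g i j =>
        congrFun (congrFun (congrFun (congrArg Subtype.val hv) g) i) j
      refine Prod.ext (Subtype.ext (funext fun g => ?_)) (Prod.ext
        (Subtype.ext (funext fun g => ?_)) (Subtype.ext (funext fun g => ?_)))
      · simpa using h1 g 0 0
      · simpa using h1 g 0 1
      · simpa using h1 g 1 0)
    rw [rank_prod', hV] at c4
    rw [rank_prod', rank_prod'] at c5
    refine le_trans ?_ (le_trans (add_le_add c1 (add_le_add c2 c3)) c5)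
    rw [add_add_add_comm, Nat.cast_add, Nat.cast_add, add_assoc]
    exact add_le_add le_rfl (add_le_add c4 (by norm_num))
  · obtain ⟨s, hs⟩ : ∃ s, s ∉ H := by
      by_contra h
      push Not at h
      exact hH (eq_top_iff.2 fun g _ => h g)
    have hl : ∀ {g}, g ∈ H → g * s ∉ H := fun hg h => hs ((H.mul_mem_cancel_left hg).1 h)
    have c4 := LinearMap.rank_le_of_injective (X 0 1) (by
      refine (injective_iff_map_eq_zero _).2 fun v hv => hx v fun l => ⟨?_, ?_⟩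
      · have h1 := hX 0 1 v l 1
        rw [hv, ac_triv (map_one ρ)] at h1
        exact h1.symm
      · have h1 := hX 0 1 v l s
        rw [hv, ac_ad hz hs] at h1
        have a1 := left_ne_zero_of_mul_eq_one (inv_ad hz hs 0)
        have a2 := right_ne_zero_of_mul_eq_one (inv_ad hz hs 1)
        exact (mul_eq_zero.1 h1.symm).resolve_left (mul_ne_zero a1 a2))
    let Φ : (Zt (fun _ => (1 : F)) T ⊤ × Zt (th ρ 0 1) T H × F) →ₗ[F] (GQ → M2 F) :=
      { toFun := fun z g => z.1.1 g • (1 : M2 F) + (ph ρ H s z.2.1.1 g + ph ρ H s z.2.1.1 (g * s))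
          + (ac ρ g (Matrix.single 1 0 z.2.2) - Matrix.single 1 0 z.2.2)
        map_add' := fun a b => by
          funext g
          have h1 : ∀ y, ph ρ H s (a.2.1.1 + b.2.1.1) y = ph ρ H s a.2.1.1 y + ph ρ H s b.2.1.1 y :=
            fun y => by
              by_cases hy : y ∈ H
              · simp only [ph_in hy, Pi.add_apply, Matrix.single_add]
              · simp only [ph_out hy, Pi.add_apply, Matrix.single_add, map_add]
          simp only [Prod.fst_add, Prod.snd_add, Submodule.coe_add, Pi.add_apply, add_smul,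
            Matrix.single_add, h1, map_add]
          abel
        map_smul' := fun r a => by
          funext g
          have h1 : ∀ y, ph ρ H s (r • a.2.1.1) y = r • ph ρ H s a.2.1.1 y := fun y => by
            by_cases hy : y ∈ H
            · simp only [ph_in hy, Pi.smul_apply, Matrix.smul_single]
            · simp only [ph_out hy, Pi.smul_apply, ← Matrix.smul_single, map_smul]
          simp only [Prod.smul_fst, Prod.smul_snd, Submodule.coe_smul, Pi.smul_apply,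
            RingHom.id_apply, smul_add, smul_sub, h1, ← Matrix.smul_single, map_smul, smul_assoc] }
    have c5 := LinearMap.rank_le_of_injective (Φ.codRestrict (V0 ρ T) fun z =>
      add_mem (add_mem (sc_mem z.1.2) (cor_mem hz hu hs z.2.1.2)) (cob_mem hz hu)) (by
      refine (injective_iff_map_eq_zero _).2 fun z hv => ?_
      have h1 : ∀ g i j, (z.1.1 g • (1 : M2 F) +
          (ph ρ H s z.2.1.1 g + ph ρ H s z.2.1.1 (g * s))
          + (ac ρ g (Matrix.single 1 0 z.2.2) - Matrix.single 1 0 z.2.2) : M2 F) i j = 0 :=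
        fun g i j =>
        congrFun (congrFun (congrFun (congrArg Subtype.val hv) g) i) j
      have a1 : z.2.1.1 = 0 := funext fun g => by
        by_cases hg : g ∈ H
        · simpa [ph_in hg, ph_out (hl hg), ac_ad hz hs, ac_dg hz hg, Fin.rev] using h1 g 0 1
        · exact z.2.1.2.2.1 g hg
      have a2 : ∀ y, ph ρ H s z.2.1.1 y = 0 := fun y => by
        by_cases hy : y ∈ H
        · rw [ph_in hy, a1, Pi.zero_apply, Matrix.single_zero]
        · rw [ph_out hy, a1, Pi.zero_apply, Matrix.single_zero, map_zero]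
      have a3 : z.2.2 = 0 := by simpa [a2, ac_ad hz hs, Fin.rev] using h1 s 1 0
      refine Prod.ext (Subtype.ext (funext fun g => ?_)) (Prod.ext (Subtype.ext a1) a3)
      simpa [a2, a3] using h1 g 0 0)
    rw [hV] at c4
    rw [rank_prod', rank_prod', Module.rank_self] at c5
    refine le_trans ?_ (le_trans (add_le_add c1 (add_le_add c2 le_rfl)) c5)
    rw [Nat.cast_add, Nat.cast_add, add_assoc, add_assoc]
    exact add_le_add le_rfl (add_le_add c4 (by norm_num))

/-- **Z1** -/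
theorem z1 [Finite F] [CharP F 2] (hC : CHR) (hz : Dz ρ H) {T : Finset ℕ} (hu : Un T ρ)
    (h0 : 0 ∈ T) (h2 : 2 ∈ T) {D : ℕ → Subgroup GQ} (hD : ∀ l ∈ T, IsDec l (D l : Set GQ))
    (hr : ∃ g ∈ H, mx ρ g 0 0 ≠ mx ρ g 1 1) :
    ∃ c : Fin (T.card + ∑ l ∈ T, wd ρ H (D l) + 2) → GQ → M2 F,
      (∀ a, c a ∈ H1 ρ T ⊤ ∧ ∀ g, (c a g).trace = 0) ∧ LinearIndependent F c := by
  obtain ⟨c, hc⟩ := exists_linearIndependent_of_le_rank (rank_V0 hC hz hu h0 h2 hD hr)
  exact ⟨fun a => (c a).1, fun a => ⟨(c a).2.1, (mem_V0.1 (c a).2).2⟩,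
    hc.map' (V0 ρ T).subtype (Submodule.ker_subtype _)⟩

end Vale.Agent.P022G.Pres
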